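import Crest.Agent.X261.Eqv.A
import Crest.Agent.X261.Ans.Man
import Crest.Agent.X261.Wand.Main
import Crest.Agent.X261.Ans.Man2
import Crest.Agent.X261.Ans.Stat
import Crest.Agent.X261.Psh.Sko71
import Crest.Agent.X261.Ans.Dec
import Crest.Agent.X261.Ans.Dim
import Crest.Agent.X261.Psh.Cvx
import Crest.Agent.X261.Ans.Cov
import Crest.Agent.X261.Ans.Cut
import Crest.Agent.X261.Ans.Comp
import Crest.Agent.X261.Ans.Eqv

-- ▼ part X261/Eqv/B1
section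

/-!
# Row 261, package EQV (helper30), file `B1`: the non-integrability locus is analytic
-/

set_option autoImplicit false
set_option linter.unusedSectionVars false
set_option linter.dupNamespace false

open Set Filter Topology MeasureTheory Metric
open scoped ENNReal

namespace Crest.Agent.X261.Eqv

open Crest.Agent.X261.Ans Crest.Agent.X261.Psh

noncomputable section

variable {E : Type} [NormedAddCommGroup E] [NormedSpace ℂ E] [FiniteDimensional ℂ E]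
  [MeasurableSpace E] [BorelSpace E] {μ : Measure E} [μ.IsAddHaarMeasure]

/-- Bombieri: the non-integrability locus of `exp (-u)` is analytic -/
theorem anAt_ni [Nontrivial E] {U : Set E} (hU : IsOpen U) {u : E → EReal} (hu : IsPsh U u)
    {z : E} (hz : z ∈ U) :
    AnAt {x | ¬ ∃ V ∈ 𝓝 x, ∫⁻ y in V, EReal.exp (-u y) ∂μ < ⊤} z := by
  set n := Module.finrank ℂ E with hn
  have hn0 : 0 < n := Module.finrank_pos
  set L : (Fin n → ℂ) ≃L[ℂ] E := ContinuousLinearEquiv.ofFinrankEq (by simp [hn]) with hL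
  set A : (Fin n → ℂ) ≃ₜ E := L.toHomeomorph.trans (Homeomorph.addLeft z) with hA
  have hAa : ∀ y, A y = z + L y := fun _ => rfl
  have : ProperSpace E := FiniteDimensional.proper ℂ E
  have hm : Measure.map A volume = Measure.map L volume := by
    have e : (A : (Fin n → ℂ) → E) = (fun y => z + y) ∘ L := rfl
    rw [e, ← Measure.map_map (measurable_const_add z) L.continuous.measurable,
      map_add_left_eq_self]
  obtain ⟨s, hs⟩ : ∃ s : NNReal, Measure.map A volume = s • μ :=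
    ⟨_, hm.trans (Measure.isAddLeftInvariant_eq_smul _ μ)⟩
  obtain ⟨s', hs'⟩ : ∃ s : NNReal, μ = s • Measure.map A volume := by
    rw [hm]; exact ⟨_, Measure.isAddLeftInvariant_eq_smul μ _⟩
  have key : ∀ (F : E → ℝ≥0∞) (V : Set E),
      ∫⁻ y in A ⁻¹' V, F (A y) = ∫⁻ y in V, F y ∂(Measure.map A volume) := fun F V => by
    rw [A.measurableEmbedding.restrict_map, A.measurableEmbedding.lintegral_map]
  have hpsh : IsPsh (A ⁻¹' U) fun y => u (A y) := hu.comp_affine (L : (Fin n → ℂ) →L[ℂ] E) z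
  obtain ⟨r, hr, hsub⟩ := nhds_basis_closedBall.mem_iff.1
    ((hU.preimage A.continuous).mem_nhds (show A 0 ∈ U by simpa [hAa] using hz))
  have hWo : IsOpen (A.symm ⁻¹' ball 0 r) := isOpen_ball.preimage A.symm.continuous
  refine ⟨A.symm ⁻¹' ball 0 r, hWo, ?_, fun y hy hy' => ?_⟩
  · show A.symm z ∈ ball 0 r
    rw [show A.symm z = 0 from A.symm_apply_eq.2 (by simp [hAa])]
    exact mem_ball_self hr
  obtain ⟨V, hV, hfin⟩ := not_not.1 hy'
  obtain ⟨h, hh, hint, h1⟩ := Wand.exists_hol_eq_one hn0 (hU.preimage A.continuous) hpsh hsub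
    (x := A.symm y) hy (V := A ⁻¹' V)
    (A.continuous.continuousAt.preimage_mem_nhds (by simpa using hV))
    (by
      rw [key (fun y => EReal.exp (-u y)), hs, Measure.restrict_smul, lintegral_smul_measure]
      exact ENNReal.mul_lt_top ENNReal.coe_lt_top hfin)
  have hAs : Differentiable ℂ (A.symm : E → Fin n → ℂ) := by
    have e : (A.symm : E → Fin n → ℂ) = fun x => L.symm (x - z) := by
      funext x
      rw [A.symm_apply_eq, hAa]; simp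
    rw [e]; fun_prop
  have hd : DifferentiableOn ℂ (fun x => h (A.symm x)) (A.symm ⁻¹' ball 0 r) :=
    hh.comp hAs.differentiableOn fun _ hx => hx
  have := FiniteDimensional.complete ℂ E
  refine ⟨fun x => h (A.symm x), ⟨R266.SCV.analyticOnNhd_of_differentiableOn hWo hd,
    fun x hx hxZ => ?_⟩, by simp [h1]⟩
  by_contra hne
  refine hxZ ?_
  have hc : ContinuousAt h (A.symm x) :=
    (hh.continuousOn.continuousAt (isOpen_ball.mem_nhds hx))
  have hδ : 0 < ‖h (A.symm x)‖ / 2 := by positivity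
  have hev : ∀ᶠ w in 𝓝 (A.symm x), ‖h (A.symm x)‖ / 2 < ‖h w‖ :=
    hc.norm.eventually (lt_mem_nhds (by linarith))
  obtain ⟨t, ht, hto, htx⟩ := _root_.mem_nhds_iff.1 (inter_mem hev (isOpen_ball.mem_nhds hx))
  refine ⟨A.symm ⁻¹' t, (hto.preimage A.symm.continuous).mem_nhds htx, ?_⟩
  rw [hs', Measure.restrict_smul, lintegral_smul_measure,
    ← key (fun y => EReal.exp (-u y))]
  refine ENNReal.mul_lt_top ENNReal.coe_lt_top ?_
  have e : A ⁻¹' (A.symm ⁻¹' t) = t := by ext w; simp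
  rw [e]
  set δ : ℝ≥0∞ := ENNReal.ofReal (‖h (A.symm x)‖ / 2) ^ 2
  have hδ0 : δ ≠ 0 := pow_ne_zero _ (ENNReal.ofReal_pos.2 hδ).ne'
  have hδ1 : δ ≠ ⊤ := ENNReal.pow_ne_top ENNReal.ofReal_ne_top
  calc _ ≤ ∫⁻ w in t, δ⁻¹ * (‖h w‖ₑ ^ 2 * EReal.exp (-u (A w))) := by
        refine setLIntegral_mono' hto.measurableSet fun w hw => ?_
        have h2 : δ ≤ ‖h w‖ₑ ^ 2 := by
          refine pow_le_pow_left' ?_ 2
          rw [← ofReal_norm]
          exact ENNReal.ofReal_le_ofReal (le_of_lt (ht hw).1)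
        calc _ = δ⁻¹ * (δ * EReal.exp (-u (A w))) := by
              rw [← mul_assoc, ENNReal.inv_mul_cancel hδ0 hδ1, one_mul]
          _ ≤ _ := by gcongr
    _ = δ⁻¹ * ∫⁻ w in t, ‖h w‖ₑ ^ 2 * EReal.exp (-u (A w)) :=
        lintegral_const_mul' _ _ (ENNReal.inv_ne_top.2 hδ0)
    _ < ⊤ := ENNReal.mul_lt_top (ENNReal.inv_lt_top.2 (pos_iff_ne_zero.2 hδ0))
        ((lintegral_mono_set fun w hw => (ht hw).2).trans_lt hint)

/-! ### `eN` -/

theorem eN_coe (N x : ℝ) : eN N x = ENNReal.ofReal (Real.exp (-(N * x))) := by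
  rw [eN, ← EReal.coe_mul, ← EReal.coe_neg, EReal.exp_coe]

theorem eN_anti {N : ℝ} (hN : 0 ≤ N) {a b : EReal} (h : a ≤ b) : eN N b ≤ eN N a := by
  refine EReal.exp_monotone (EReal.neg_le_neg_iff.2 ?_)
  exact mul_le_mul_of_nonneg_left h (EReal.coe_nonneg.2 hN)

theorem eN_add_coe {N : ℝ} (hN : 0 < N) (a : EReal) (x : ℝ) :
    eN N (a + x) = ENNReal.ofReal (Real.exp (-(N * x))) * eN N a := by
  have h0 : (0 : EReal) < N := EReal.coe_pos.2 hN
  have h1 : ENNReal.ofReal (Real.exp (-(N * x))) ≠ 0 := (ENNReal.ofReal_pos.2 (Real.exp_pos _)).ne'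
  induction a with
  | bot => simp [eN, EReal.mul_bot_of_pos h0, ENNReal.mul_top h1]
  | top => simp [eN, EReal.mul_top_of_pos h0]
  | coe y =>
    rw [← EReal.coe_add, eN_coe, eN_coe, ← ENNReal.ofReal_mul (Real.exp_pos _).le, ← Real.exp_add]
    congr 2; ring

theorem eN_ne_top {N : ℝ} (hN : 0 < N) {a : EReal} (ha : a ≠ ⊥) : eN N a ≠ ⊤ := by
  have h0 : (0 : EReal) < N := EReal.coe_pos.2 hN
  induction a with
  | bot => exact (ha rfl).elim
  | top => simp [eN, EReal.mul_top_of_pos h0]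
  | coe y => rw [eN_coe]; exact ENNReal.ofReal_ne_top

variable {M : Type} [TopologicalSpace M] {A : HA E M}

/-- locally bounded potentials -/
def WB (A : HA E M) (wt : A.ι → E → ℝ) : Prop :=
  ∀ i, ∀ z ∈ (A.e i).target, ∃ C : ℝ, ∀ᶠ w in 𝓝 z, |wt i w| ≤ C

theorem li_iff {wt : A.ι → E → ℝ} (hw : WB A wt) {u : M → EReal} {N : ℝ} (hN : 0 < N)
    {i : A.ι} {z : E} (hz : z ∈ (A.e i).target) :
    LI μ A (fun y => eN N (u y)) ((A.e i).symm z) ↔
      ∃ V ∈ 𝓝 z, ∫⁻ y in V, EReal.exp (-((N : EReal) * (u ((A.e i).symm y) + (wt i y : ℝ)))) ∂μ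
        < ⊤ := by
  obtain ⟨C, hC⟩ := hw i z hz
  have key : ∀ (F F' : E → ℝ≥0∞) {V : Set E}, V ∈ 𝓝 z → ∫⁻ y in V, F y ∂μ < ⊤ →
      (∀ y, |wt i y| ≤ C → F' y ≤ ENNReal.ofReal (Real.exp (N * C)) * F y) →
      ∃ V ∈ 𝓝 z, ∫⁻ y in V, F' y ∂μ < ⊤ := by
    intro F F' V hV hF hle
    obtain ⟨t, ht, hto, htz⟩ := _root_.mem_nhds_iff.1 (inter_mem hV hC)
    refine ⟨t, hto.mem_nhds htz, ?_⟩
    calc _ ≤ ∫⁻ y in t, ENNReal.ofReal (Real.exp (N * C)) * F y ∂μ :=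
          setLIntegral_mono' hto.measurableSet fun y hy => hle y (ht hy).2
      _ = _ * ∫⁻ y in t, F y ∂μ := lintegral_const_mul' _ _ ENNReal.ofReal_ne_top
      _ < ⊤ := ENNReal.mul_lt_top ENNReal.ofReal_lt_top
          ((lintegral_mono_set fun w hw => (ht hw).1).trans_lt hF)
  constructor
  · intro h
    obtain ⟨V, hV, hF⟩ := h.chart ((A.e i).map_target hz)
    rw [(A.e i).right_inv hz] at hV
    refine key _ _ hV hF fun y hy => ?_
    show eN N _ ≤ _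
    rw [eN_add_coe hN]
    gcongr
    nlinarith [abs_le.1 hy]
  · rintro ⟨V, hV, hF⟩
    refine ⟨i, (A.e i).map_target hz, ?_⟩
    rw [(A.e i).right_inv hz]
    refine key _ _ hV hF fun y hy => ?_
    show _ ≤ _ * eN N _
    rw [eN_add_coe hN, ← mul_assoc, ← ENNReal.ofReal_mul (Real.exp_pos _).le, ← Real.exp_add]
    refine le_mul_of_one_le_left' ?_
    rw [ENNReal.one_le_ofReal, Real.one_le_exp_iff]
    nlinarith [abs_le.1 hy]

theorem an_ni [Nontrivial E] {wt : A.ι → E → ℝ} (hw : WB A wt) {u : M → EReal} (hu : PW A wt u)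
    {N : ℝ} (hN : 0 < N) : A.An univ {x | ¬ LI μ A (fun y => eN N (u y)) x} := by
  intro x _
  obtain ⟨i, hi⟩ := A.cover x
  refine ⟨i, hi, (anAt_ni (μ := μ) (A.e i).open_target ((hu i).smul hN.le)
    ((A.e i).map_source hi)).congr ?_⟩
  filter_upwards [HA.ev_target hi] with z hz
  exact not_congr (li_iff hw hN hz).symm

/-- a weight is locally bounded above -/
theorem PW.bdd {wt : A.ι → E → ℝ} (hw : WB A wt) {u : M → EReal} (hu : PW A wt u) (x : M) :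
    ∃ C : ℝ, ∀ᶠ y in 𝓝 x, u y ≤ C := by
  obtain ⟨i, hi⟩ := A.cover x
  have hz := (A.e i).map_source hi
  obtain ⟨C, hC⟩ := hw i _ hz
  obtain ⟨b, hb, -⟩ := EReal.lt_iff_exists_real_btwn.1 ((hu i).lt_top _ hz)
  refine ⟨b + C, (HA.ev_chart hi).2 ?_⟩
  filter_upwards [hC, (hu i).uscAt (A.e i).open_target hz _ hb] with z h1 h2
  have := add_le_coe h2.le (le_refl ((-wt i z : ℝ) : EReal))
  rw [add_assoc, ← EReal.coe_add, add_neg_cancel, EReal.coe_zero, add_zero] at this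
  exact this.trans (EReal.coe_le_coe_iff.2 (by linarith [(abs_le.1 h1).1]))

theorem PW.ne_top {wt : A.ι → E → ℝ} {u : M → EReal} (hu : PW A wt u) (x : M) : u x ≠ ⊤ := by
  obtain ⟨i, hi⟩ := A.cover x
  have := (hu i).lt_top _ ((A.e i).map_source hi)
  rw [(A.e i).left_inv hi] at this
  intro h
  simp [h] at this

/-- an almost everywhere inequality between weights holds everywhere -/
theorem PW.le_of_ae {wt : A.ι → E → ℝ} {u v : M → EReal} (hu : PW A wt u) (hv : PW A wt v)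
    {x : M} {W : Set M} (hW : W ∈ 𝓝 x) (a : ℝ) (h : AE μ A fun y => y ∈ W → u y ≤ v y + a) :
    u x ≤ v x + a := by
  obtain ⟨i, hi⟩ := A.cover x
  have hz := (A.e i).map_source hi
  have := (hu i).le_of_ae μ (A.e i).open_target hz
    (g := fun z => v ((A.e i).symm z) + (wt i z : ℝ) + a)
    (((hv i).add_const a).uscAt (A.e i).open_target hz)
    (inter_mem ((HA.ev_chart hi).1 hW) (HA.ev_target hi))
    ((h i).mono fun z hz hz' => by
      rw [add_right_comm]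
      exact add_le_add (hz hz'.2 hz'.1) le_rfl)
  simp only [(A.e i).left_inv hi] at this
  rw [add_right_comm] at this
  exact (EReal.addLECancellable_coe _).add_le_add_iff_right.1 this

end

end Crest.Agent.X261.Eqv
end

-- ▼ part X261/Eqv/B2
section

/-!
# Row 261, package EQV (helper30), file `B2`: the closeness relations of a two-point system
-/

set_option autoImplicit false
set_option linter.unusedSectionVars false
set_option linter.dupNamespace false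

open Set Filter Topology MeasureTheory Metric
open scoped ENNReal

namespace Crest.Agent.X261.Eqv

open Crest.Agent.X261.Ans Crest.Agent.X261.Psh

noncomputable section

variable {E : Type} [NormedAddCommGroup E] [NormedSpace ℂ E] [FiniteDimensional ℂ E]
  [MeasurableSpace E] [BorelSpace E] {μ : Measure E} [μ.IsAddHaarMeasure]
  {M : Type} [TopologicalSpace M] {A : HA E M} {G : Type} [Group G] [MulAction G M]

theorem le_coe_mono {a : EReal} {x y : ℝ} (h : a ≤ x) (hxy : x ≤ y) : a ≤ y :=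
  h.trans (EReal.coe_le_coe_iff.2 hxy)

theorem tendsto_log_zero {c : ℝ} (hc : 0 < c) (b : ℝ) :
    ∀ᶠ r in 𝓝[>] (0 : ℝ), c * Real.log r ≤ b :=
  (Real.tendsto_log_nhdsGT_zero.const_mul_atBot hc).eventually (eventually_le_atBot b)

theorem ev_lt {r : ℝ} (hr : 0 < r) : ∀ᶠ t in 𝓝[>] (0 : ℝ), t < r :=
  mem_nhdsWithin_of_mem_nhds (gt_mem_nhds hr)

namespace TP

variable (T : TP μ A G)

theorem wb : WB A T.wt := T.wt_bdd

theorem φ_real {x : M} (hx : x ∈ T.M0) : T.φ x = ((T.φ x).toReal : ℝ) :=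
  (EReal.coe_toReal (T.φ_psh.ne_top x) (T.M0_fin x hx)).symm

theorem smul_cont (T : TP μ A G) (g : G) : Continuous fun x : M => g • x :=
  continuous_iff_continuousAt.2 fun x => (T.hol g x).1

theorem tri1 (k : ℕ) : ∃ lam C : ℝ, 0 < lam ∧ lam ≤ 1 ∧ 0 ≤ C ∧ ∀ x ∈ T.M0, ∀ y ∈ T.M0,
    ∀ z ∈ T.M0, ∀ a : ℝ, T.Xi (k + 1) x y ≤ (-a : ℝ) → T.Xi (k + 1) y z ≤ (-a : ℝ) →
      T.Xi k x z ≤ (C - lam * a : ℝ) := by
  obtain ⟨lam, C, hl, h⟩ := T.tri k
  refine ⟨min lam 1, max C 0, lt_min hl one_pos, min_le_right _ _, le_max_right _ _,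
    fun x hx y hy z hz a h1 h2 => ?_⟩
  rcases le_total 0 a with ha | ha
  · refine le_coe_mono (h x hx y hy z hz a ha h1 h2) ?_
    nlinarith [le_max_left C 0, min_le_left lam 1]
  · refine le_coe_mono (x := 0) (T.Xi_le k x hx z hz) ?_
    nlinarith [le_max_right C 0, lt_min hl one_pos]

theorem Xi_diag (k : ℕ) {y : M} (hy : y ∈ T.M0) (a : ℝ) : T.Xi k y y ≤ a := by
  obtain ⟨c, hc, h⟩ := T.pole k
  obtain ⟨i, hi⟩ := A.cover y
  obtain ⟨C, V, hV, h⟩ := h i _ ((A.e i).map_source hi)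
  obtain ⟨r, hr, hr0⟩ := ((tendsto_log_zero hc (a + (T.φ y).toReal - C)).and
    self_mem_nhdsWithin).exists
  have := h _ (mem_of_mem_nhds hV) _ (mem_of_mem_nhds hV) (by rwa [(A.e i).left_inv hi])
    (by rwa [(A.e i).left_inv hi]) r hr0 (by simpa using le_of_lt hr0)
  rw [(A.e i).left_inv hi, T.φ_real hy, add_coe_le_iff] at this
  exact le_coe_mono this (by linarith)

/-- three steps -/
theorem tri3 (k : ℕ) : ∃ lam C : ℝ, 0 < lam ∧ lam ≤ 1 ∧ ∀ x ∈ T.M0, ∀ y ∈ T.M0,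
    ∀ z ∈ T.M0, ∀ w ∈ T.M0, ∀ a : ℝ, T.Xi (k + 2) x y ≤ (-a : ℝ) → T.Xi (k + 2) y z ≤ (-a : ℝ) →
      T.Xi (k + 2) z w ≤ (-a : ℝ) → T.Xi k x w ≤ (C - lam * a : ℝ) := by
  obtain ⟨l0, C0, h01, h02, h03, h0⟩ := T.tri1 k
  obtain ⟨l1, C1, h11, h12, h13, h1⟩ := T.tri1 (k + 1)
  refine ⟨l0 * l1, C0 + l0 * C1, mul_pos h01 h11, mul_le_one₀ h02 h11.le h12,
    fun x hx y hy z hz w hw a hxy hyz hzw => ?_⟩
  have e1 := h1 x hx y hy z hz a hxy hyz
  have e2 := h1 z hz w hw w hw a hzw (T.Xi_diag _ hw _)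
  refine le_coe_mono (h0 x hx z hz w hw (l1 * a - C1) (le_coe_mono e1 (by linarith))
    (le_coe_mono e2 (by linarith))) (by linarith)

theorem triQ (k : ℕ) (a : ℝ) : ∃ b : ℝ, ∀ x ∈ T.M0, ∀ y ∈ T.M0, ∀ z ∈ T.M0,
    T.Xi (k + 1) x y ≤ (-b : ℝ) → T.Xi (k + 1) y z ≤ (-b : ℝ) → T.Xi k x z ≤ (-a : ℝ) := by
  obtain ⟨l, C, h1, -, -, h⟩ := T.tri1 k
  refine ⟨(C + a) / l, fun x hx y hy z hz hxy hyz => le_coe_mono (h x hx y hy z hz _ hxy hyz) ?_⟩
  rw [mul_div_cancel₀ _ h1.ne']; linarith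

theorem tri3Q (k : ℕ) (a : ℝ) : ∃ b : ℝ, ∀ x ∈ T.M0, ∀ y ∈ T.M0, ∀ z ∈ T.M0, ∀ w ∈ T.M0,
    T.Xi (k + 2) x y ≤ (-b : ℝ) → T.Xi (k + 2) y z ≤ (-b : ℝ) → T.Xi (k + 2) z w ≤ (-b : ℝ) →
      T.Xi k x w ≤ (-a : ℝ) := by
  obtain ⟨l, C, h1, -, h⟩ := T.tri3 k
  refine ⟨(C + a) / l, fun x hx y hy z hz w hw hxy hyz hzw =>
    le_coe_mono (h x hx y hy z hz w hw _ hxy hyz hzw) ?_⟩
  rw [mul_div_cancel₀ _ h1.ne']; linarith

theorem monoQ {k k' : ℕ} (hk : k ≤ k') (a : ℝ) : ∃ b : ℝ, ∀ x ∈ T.M0, ∀ y ∈ T.M0,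
    T.Xi k' x y ≤ (-b : ℝ) → T.Xi k x y ≤ (-a : ℝ) := by
  induction k', hk using Nat.le_induction with
  | base => exact ⟨a, fun _ _ _ _ h => h⟩
  | succ k' _ ih =>
    obtain ⟨b, hb⟩ := ih
    obtain ⟨b', hb'⟩ := T.triQ k' b
    exact ⟨b', fun x hx y hy h => hb x hx y hy (hb' x hx y hy y hy h (T.Xi_diag _ hy _))⟩

/-! ### `cl` -/

variable {T}

theorem mem_cl {k : ℕ} {a : ℝ} {p q : M} : (p, q) ∈ T.cl k a ↔ ∀ W ∈ 𝓝 p, ∀ W' ∈ 𝓝 q,
    ∃ x ∈ W ∩ T.M0, ∃ y ∈ W' ∩ T.M0, T.Xi k x y ≤ (-a : ℝ) := by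
  rw [cl, mem_closure_iff_nhds]
  constructor
  · intro h W hW W' hW'
    obtain ⟨z, h1, h2⟩ := h _ (prod_mem_nhds hW hW')
    exact ⟨z.1, ⟨h1.1, h2.1⟩, z.2, ⟨h1.2, h2.2.1⟩, h2.2.2⟩
  · intro h t ht
    obtain ⟨W, hW, W', hW', hs⟩ := mem_nhds_prod_iff.1 ht
    obtain ⟨x, hx, y, hy, hxy⟩ := h W hW W' hW'
    exact ⟨(x, y), hs ⟨hx.1, hy.1⟩, hx.2, hy.2, hxy⟩

theorem isClosed_cl {k : ℕ} {a : ℝ} : IsClosed (T.cl k a) := isClosed_closure

theorem mem_cl_of {k : ℕ} {a : ℝ} {x y : M} (hx : x ∈ T.M0) (hy : y ∈ T.M0)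
    (h : T.Xi k x y ≤ (-a : ℝ)) : (x, y) ∈ T.cl k a := subset_closure ⟨hx, hy, h⟩

theorem cl_anti {k : ℕ} {a b : ℝ} (h : a ≤ b) : T.cl k b ⊆ T.cl k a :=
  closure_mono fun _ hq => ⟨hq.1, hq.2.1, le_coe_mono hq.2.2 (by linarith)⟩

theorem cl_symm {k : ℕ} {a : ℝ} {p q : M} (h : (p, q) ∈ T.cl k a) : (q, p) ∈ T.cl k a := by
  rw [mem_cl] at h ⊢
  intro W hW W' hW'
  obtain ⟨x, hx, y, hy, hxy⟩ := h W' hW' W hW
  exact ⟨y, hy, x, hx, T.Xi_symm k x hx.2 y hy.2 ▸ hxy⟩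

theorem cl_inv {k : ℕ} {a : ℝ} {p q : M} (g : G) (h : (p, q) ∈ T.cl k a) :
    (g • p, g • q) ∈ T.cl k a := by
  rw [mem_cl] at h ⊢
  intro W hW W' hW'
  obtain ⟨x, hx, y, hy, hxy⟩ := h _ ((T.smul_cont g).continuousAt.preimage_mem_nhds hW) _
    ((T.smul_cont g).continuousAt.preimage_mem_nhds hW')
  exact ⟨g • x, ⟨hx.1, T.M0_inv g x hx.2⟩, g • y, ⟨hy.1, T.M0_inv g y hy.2⟩,
    (T.Xi_inv k g x hx.2 y hy.2).symm ▸ hxy⟩

theorem cl_mono (T : TP μ A G) {k k' : ℕ} (hk : k ≤ k') (a : ℝ) : ∃ b, T.cl k' b ⊆ T.cl k a := by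
  obtain ⟨b, hb⟩ := T.monoQ hk a
  exact ⟨b, closure_mono fun q hq => ⟨hq.1, hq.2.1, hb _ hq.1 _ hq.2.1 hq.2.2⟩⟩

/-- infinitely close at level `k` -/
def R1 (T : TP μ A G) (k : ℕ) : Set (M × M) := {q | ∀ a, q ∈ T.cl k a}

theorem R1_anti {k k' : ℕ} (hk : k ≤ k') : T.R1 k' ⊆ T.R1 k := fun _ hq a =>
  let ⟨b, hb⟩ := T.cl_mono hk a
  hb (hq b)

/-- points near which all typical points are close -/
def Near (T : TP μ A G) (k : ℕ) (x : M) : Prop :=
  ∀ a : ℝ, ∃ W ∈ 𝓝 x, ∀ z ∈ W ∩ T.M0, ∀ z' ∈ W ∩ T.M0, T.Xi k z z' ≤ (-a : ℝ)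

theorem Near.anti {k k' : ℕ} (hk : k ≤ k') {x : M} (h : T.Near k' x) : T.Near k x := fun a =>
  let ⟨b, hb⟩ := T.monoQ hk a
  let ⟨W, hW, h⟩ := h b
  ⟨W, hW, fun z hz z' hz' => hb z hz.2 z' hz'.2 (h z hz z' hz')⟩

theorem Near.inv {k : ℕ} {x : M} (h : T.Near k x) (g : G) : T.Near k (g • x) := fun a => by
  obtain ⟨W, hW, h⟩ := h a
  refine ⟨(fun y => g⁻¹ • y) ⁻¹' W, (T.smul_cont g⁻¹).continuousAt.preimage_mem_nhds
    (by simpa using hW), fun z hz z' hz' => ?_⟩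
  rw [← T.Xi_inv k g⁻¹ z hz.2 z' hz'.2]
  exact h _ ⟨hz.1, T.M0_inv _ _ hz.2⟩ _ ⟨hz'.1, T.M0_inv _ _ hz'.2⟩

theorem exists_near (T : TP μ A G) (k : ℕ) : ∃ N₀ : ℝ, ∀ N, N₀ ≤ N → 0 < N → ∀ x,
    LI μ A (fun y => eN N (T.φ y)) x → T.Near k x := by
  obtain ⟨c, hc, hp⟩ := T.pole (k + 1)
  set D : ℝ := ((Module.finrank ℝ E + 1 : ℕ) : ℝ) with hD
  refine ⟨2 * D / c, fun N hN hN0 x hx a => ?_⟩
  obtain ⟨b, hb⟩ := T.triQ k a
  obtain ⟨i, hi⟩ := A.cover x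
  obtain ⟨C, V, hV, hp⟩ := hp i _ ((A.e i).map_source hi)
  obtain ⟨r₀, hr₀, hsub⟩ := Metric.mem_nhds_iff.1 hV
  obtain ⟨r, ⟨⟨w, hw1, hw2, hw3, hw4⟩, h1, h2, h3⟩, hr⟩ :=
    (((hx.typ hi univ_mem (P := fun y => y ∈ T.M0) (T.M0_ae.mono fun _ h _ => h)).and
      ((tendsto_log_zero (half_pos hc) (-b - C - c * Real.log 2)).and
        ((ev_lt hr₀).and
          (ev_lt one_pos)))).and
      self_mem_nhdsWithin).exists
  have hr : 0 < r := hr
  have hlog : Real.log r < 0 := Real.log_neg hr h3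
  have hφ : D * Real.log r < N * (T.φ ((A.e i).symm w)).toReal := by
    rw [T.φ_real hw3, eN_coe, ENNReal.ofReal_lt_ofReal_iff (by positivity)] at hw4
    have := Real.log_lt_log (Real.exp_pos _) hw4
    rw [Real.log_exp, Real.log_inv, Real.log_pow] at this
    linarith
  have hφ' : c / 2 * Real.log r < (T.φ ((A.e i).symm w)).toReal := by
    refine lt_of_mul_lt_mul_left (lt_of_le_of_lt ?_ hφ) hN0.le
    have : 2 * D ≤ N * c := by rwa [div_le_iff₀ hc] at hN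
    nlinarith
  have key : ∀ z ∈ (A.e i).source ∩ A.e i ⁻¹' ball (A.e i x) r ∩ T.M0,
      T.Xi (k + 1) z ((A.e i).symm w) ≤ (-b : ℝ) := by
    intro z hz
    have := hp (A.e i z) (hsub (ball_subset_ball h2.le hz.1.2)) w
      (hsub (ball_subset_ball h2.le hw1)) (by rw [(A.e i).left_inv hz.1.1]; exact hz.2) hw3
      (2 * r) (by positivity) (by
        rw [← dist_eq_norm]
        linarith [dist_triangle_right (A.e i z) w (A.e i x), mem_ball.1 hz.1.2, mem_ball.1 hw1])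
    rw [(A.e i).left_inv hz.1.1, T.φ_real hw3, add_coe_le_iff,
      Real.log_mul two_ne_zero hr.ne'] at this
    exact le_coe_mono this (by nlinarith)
  refine ⟨(A.e i).source ∩ A.e i ⁻¹' ball (A.e i x) r, inter_mem (HA.ev_source hi)
    (((A.e i).continuousAt hi).preimage_mem_nhds (ball_mem_nhds _ hr)), fun z hz z' hz' => ?_⟩
  exact hb z hz.2 _ hw3 z' hz'.2 (key z hz) (T.Xi_symm _ _ hz'.2 _ hw3 ▸ key z' hz')

theorem cl_comp (T : TP μ A G) (k : ℕ) (a : ℝ) : ∃ b : ℝ, ∀ p q r : M, T.Near (k + 2) q →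
    (p, q) ∈ T.cl (k + 2) b → (q, r) ∈ T.cl (k + 2) b → (p, r) ∈ T.cl k a := by
  obtain ⟨b, hb⟩ := T.tri3Q k a
  refine ⟨b, fun p q r hq h1 h2 => mem_cl.2 fun W hW W' hW' => ?_⟩
  obtain ⟨V, hV, hq⟩ := hq b
  obtain ⟨x, hx, y, hy, hxy⟩ := mem_cl.1 h1 W hW V hV
  obtain ⟨z, hz, w, hw, hzw⟩ := mem_cl.1 h2 V hV W' hW'
  exact ⟨x, hx, w, hw, hb x hx.2 y hy.2 z hz.2 w hw.2 hxy (hq y hy z hz) hzw⟩


theorem R1_comp {k : ℕ} {p q r : M} (hq : T.Near (k + 2) q) (h1 : (p, q) ∈ T.R1 (k + 2))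
    (h2 : (q, r) ∈ T.R1 (k + 2)) : (p, r) ∈ T.R1 k := fun a =>
  let ⟨b, hb⟩ := T.cl_comp k a
  hb p q r hq (h1 b) (h2 b)

theorem diag_R1 (T : TP μ A G) (k : ℕ) (x : M) : (x, x) ∈ T.R1 k := fun a => by
  refine mem_cl.2 fun W hW W' hW' => ?_
  obtain ⟨y, h1, h2⟩ := T.M0_ae.exists_mem (inter_mem hW hW')
  exact ⟨y, ⟨h1.1, h2⟩, y, ⟨h1.2, h2⟩, T.Xi_diag k h2 _⟩

/-! ### comparison with the non-integrability loci of `u k` -/

theorem u_eq' (T : TP μ A G) (k : ℕ) : AE (μ.prod μ) (A.prod A) fun q => q.1 ∈ T.M0 ∧ q.2 ∈ T.M0 ∧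
    T.u k q = T.Xi k q.1 q.2 + (((T.φ q.1).toReal + (T.φ q.2).toReal : ℝ) : EReal) :=
  ((T.M0_ae.fst A).and ((T.M0_ae.snd A).and (T.u_eq k))).mono fun q hq =>
    ⟨hq.1, hq.2.1, by rw [hq.2.2, EReal.coe_add, ← T.φ_real hq.1, ← T.φ_real hq.2.1, add_assoc]⟩

theorem li_of_not_cl {k : ℕ} {a N : ℝ} (hN : 0 < N) {p q : M}
    (hp : LI μ A (fun y => eN N (T.φ y)) p) (hq : LI μ A (fun y => eN N (T.φ y)) q)
    (h : (p, q) ∉ T.cl k a) : LI (μ.prod μ) (A.prod A) (fun z => eN N (T.u k z)) (p, q) := by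
  refine (hp.prod hq (T.M0_ae.mono fun x hx => eN_ne_top hN (T.M0_fin x hx))).mono
    (isClosed_cl.isOpen_compl.mem_nhds h) (c := ENNReal.ofReal (Real.exp (N * a)))
    ENNReal.ofReal_ne_top ((T.u_eq' k).mono fun z hz hW => ?_)
  have h1 : ((-a : ℝ) : EReal) ≤ T.Xi k z.1 z.2 :=
    le_of_lt (lt_of_not_ge fun h => hW (mem_cl_of hz.1 hz.2.1 h))
  rw [hz.2.2]
  refine (eN_anti hN.le (add_le_add h1 le_rfl)).trans (le_of_eq ?_)
  rw [T.φ_real hz.1, T.φ_real hz.2.1, ← EReal.coe_add, eN_coe, eN_coe, eN_coe,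
    ← ENNReal.ofReal_mul (Real.exp_pos _).le, ← ENNReal.ofReal_mul (Real.exp_pos _).le,
    ← Real.exp_add, ← Real.exp_add]
  simp only [EReal.toReal_coe]
  congr 2; ring

theorem exists_pole (T : TP μ A G) (k : ℕ) : ∃ N₀ : ℝ, ∀ N, N₀ ≤ N → 0 < N → ∀ q ∈ T.R1 (k + 2),
    ¬ LI (μ.prod μ) (A.prod A) (fun z => eN N (T.u k z)) q := by
  obtain ⟨c, hc, hp⟩ := T.pole (k + 2)
  obtain ⟨l, C₀, hl0, hl1, ht⟩ := T.tri3 k
  set D : ℝ := ((Module.finrank ℝ (E × E) + 1 : ℕ) : ℝ) with hD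
  refine ⟨(D + 1) / (l * c), fun N hN hN0 ⟨p, q⟩ hq hli => ?_⟩
  have hNc : D + 1 ≤ N * (l * c) := by rwa [div_le_iff₀ (mul_pos hl0 hc)] at hN
  obtain ⟨i, hi⟩ := A.cover p
  obtain ⟨j, hj⟩ := A.cover q
  obtain ⟨C₁, V₁, hV₁, hp₁⟩ := hp i _ ((A.e i).map_source hi)
  obtain ⟨C₂, V₂, hV₂, hp₂⟩ := hp j _ ((A.e j).map_source hj)
  obtain ⟨B₁, hB₁⟩ := T.φ_psh.bdd T.wb p
  obtain ⟨B₂, hB₂⟩ := T.φ_psh.bdd T.wb q
  obtain ⟨r₁, hr₁, hs₁⟩ := Metric.mem_nhds_iff.1 (inter_mem hV₁ ((HA.ev_chart hi).1 hB₁))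
  obtain ⟨r₂, hr₂, hs₂⟩ := Metric.mem_nhds_iff.1 (inter_mem hV₂ ((HA.ev_chart hj).1 hB₂))
  set C := max C₁ C₂
  set B := max (max B₁ B₂) 0
  have hB0 : 0 ≤ B := le_max_right _ _
  have hij : (p, q) ∈ ((A.prod A).e (i, j)).source := ⟨hi, hj⟩
  obtain ⟨r, ⟨⟨w, hw1, hw2, ⟨hw3, hw4, hw5⟩, hw6⟩, h1, h2, h3, h4⟩, hr⟩ :=
    (((hli.typ hij univ_mem ((T.u_eq' k).mono fun _ h _ => h)).and
      ((tendsto_log_zero one_pos (-(N * (C₀ + l * (c * Real.log 2 + C) + 2 * B)))).and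
        ((ev_lt hr₁).and
          ((ev_lt hr₂).and
          (ev_lt one_pos))))).and
      self_mem_nhdsWithin).exists
  have hr : 0 < r := hr
  have hlog : Real.log r < 0 := Real.log_neg hr h4
  have hw1' : w.1 ∈ ball (A.e i p) r ∧ w.2 ∈ ball (A.e j q) r := by
    have : w ∈ ball (A.e i p, A.e j q) r := hw1
    rwa [← ball_prod_same] at this
  set z₁ := (A.e i).symm w.1 with hz₁
  set z₂ := (A.e j).symm w.2 with hz₂
  have hw3 : z₁ ∈ T.M0 := hw3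
  have hw4 : z₂ ∈ T.M0 := hw4
  have hw5 : T.u k (z₁, z₂) = T.Xi k z₁ z₂ + (((T.φ z₁).toReal + (T.φ z₂).toReal : ℝ) : EReal) :=
    hw5
  have hw6 : eN N (T.u k (z₁, z₂)) < ENNReal.ofReal ((r ^ (Module.finrank ℝ (E × E) + 1))⁻¹) :=
    hw6
  set f₁ := (T.φ z₁).toReal
  set f₂ := (T.φ z₂).toReal
  have hf₁ : f₁ ≤ B := by
    have := (hs₁ (ball_subset_ball h2.le hw1'.1)).2
    have h' : T.φ z₁ ≤ B₁ := this
    rw [T.φ_real hw3, EReal.coe_le_coe_iff] at h'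
    exact h'.trans ((le_max_left _ _).trans (le_max_left _ _))
  have hf₂ : f₂ ≤ B := by
    have := (hs₂ (ball_subset_ball h3.le hw1'.2)).2
    have h' : T.φ z₂ ≤ B₂ := this
    rw [T.φ_real hw4, EReal.coe_le_coe_iff] at h'
    exact h'.trans ((le_max_right _ _).trans (le_max_left _ _))
  set a := min f₁ f₂ - (c * (Real.log 2 + Real.log r) + C) with ha
  obtain ⟨x, hx, y, hy, hxy⟩ := mem_cl.1 (hq a) ((A.e i).source ∩ A.e i ⁻¹' ball (A.e i p) r)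
    (inter_mem (HA.ev_source hi) (((A.e i).continuousAt hi).preimage_mem_nhds (ball_mem_nhds _ hr)))
    ((A.e j).source ∩ A.e j ⁻¹' ball (A.e j q) r)
    (inter_mem (HA.ev_source hj) (((A.e j).continuousAt hj).preimage_mem_nhds (ball_mem_nhds _ hr)))
  have e1 : T.Xi (k + 2) x z₁ ≤ (-a : ℝ) := by
    have := hp₁ (A.e i x) (hs₁ (ball_subset_ball h2.le hx.1.2)).1 w.1
      (hs₁ (ball_subset_ball h2.le hw1'.1)).1 (by rw [(A.e i).left_inv hx.1.1]; exact hx.2) hw3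
      (2 * r) (by positivity) (by
        rw [← dist_eq_norm]
        linarith [dist_triangle_right (A.e i x) w.1 (A.e i p), mem_ball.1 hx.1.2,
          mem_ball.1 hw1'.1])
    rw [(A.e i).left_inv hx.1.1, ← hz₁, T.φ_real hw3, add_coe_le_iff,
      Real.log_mul two_ne_zero hr.ne'] at this
    exact le_coe_mono this (by linarith [min_le_left f₁ f₂, le_max_left C₁ C₂])
  have e2 : T.Xi (k + 2) y z₂ ≤ (-a : ℝ) := by
    have := hp₂ (A.e j y) (hs₂ (ball_subset_ball h3.le hy.1.2)).1 w.2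
      (hs₂ (ball_subset_ball h3.le hw1'.2)).1 (by rw [(A.e j).left_inv hy.1.1]; exact hy.2) hw4
      (2 * r) (by positivity) (by
        rw [← dist_eq_norm]
        linarith [dist_triangle_right (A.e j y) w.2 (A.e j q), mem_ball.1 hy.1.2,
          mem_ball.1 hw1'.2])
    rw [(A.e j).left_inv hy.1.1, ← hz₂, T.φ_real hw4, add_coe_le_iff,
      Real.log_mul two_ne_zero hr.ne'] at this
    exact le_coe_mono this (by linarith [min_le_right f₁ f₂, le_max_right C₁ C₂])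
  have e3 := ht z₁ hw3 x hx.2 y hy.2 z₂ hw4 a (T.Xi_symm _ _ hx.2 _ hw3 ▸ e1) hxy e2
  have e4 : T.u k (z₁, z₂) ≤ ((C₀ + l * (c * (Real.log 2 + Real.log r) + C) + 2 * B : ℝ) : EReal) := by
    rw [hw5]
    refine le_coe_mono (add_le_coe e3 le_rfl) ?_
    rcases le_total f₁ f₂ with h | h
    · rw [ha, min_eq_left h]; nlinarith
    · rw [ha, min_eq_right h]; nlinarith
  have e5 := (eN_anti hN0.le e4).trans_lt hw6
  rw [eN_coe, ENNReal.ofReal_lt_ofReal_iff (by positivity)] at e5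
  have := Real.log_lt_log (Real.exp_pos _) e5
  rw [Real.log_exp, Real.log_inv, Real.log_pow, ← hD] at this
  nlinarith

end TP

end

end Crest.Agent.X261.Eqv
end

-- ▼ part X261/Eqv/Defs2
section

/-!
# Row 261, package EQV (helper30), file `Defs2`: internal interfaces of the proof of `EqvStmt`

* `GS A G` : graded system of analytic relations; `GS.Ch` : its foliation charts;
* `TP.Lv` : the graded system of a two-point system;
* `TP.Out0` : the output without the wandering case.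
-/

set_option autoImplicit false
set_option linter.unusedSectionVars false
set_option linter.dupNamespace false

open Set Filter Topology MeasureTheory

namespace Crest.Agent.X261.Eqv

open Crest.Agent.X261.Ans Crest.Agent.X261.Psh Crest.Agent.X261.Loc

noncomputable section

variable {E : Type} [NormedAddCommGroup E] [NormedSpace ℂ E] {M : Type} [TopologicalSpace M]

/-- a graded system of invariant analytic relations -/
structure GS (A : HA E M) (G : Type) [Group G] [MulAction G M] where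
  hol : ∀ (g : G) (x : M), A.Hol A (fun y => g • y) x
  K : Set M
  K_cpt : IsCompact K
  K_cov : ∀ x : M, ∃ g : G, g • x ∈ K
  B : ℕ → Set M
  an_B : ∀ k, A.An univ (B k)
  ne_B : ∀ k, B k ≠ univ
  B_mono : Monotone B
  B_inv : ∀ k (g : G) x, x ∈ B k → g • x ∈ B k
  V : ℕ → Set (M × M)
  an_V : ∀ k, (A.prod A).An univ (V k)
  V_anti : Antitone V
  diag : ∀ k x, (x, x) ∈ V k
  symm : ∀ k x y, (x, y) ∈ V k → (y, x) ∈ V k
  inv : ∀ k (g : G) x y, (x, y) ∈ V k → (g • x, g • y) ∈ V k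
  comp : ∀ k x y z, x ∉ B (k + 4) → y ∉ B (k + 4) → z ∉ B (k + 4) → (x, y) ∈ V (k + 4) →
    (y, z) ∈ V (k + 4) → (x, z) ∈ V k

/-- foliation charts of a graded system -/
structure GS.Ch {A : HA E M} {G : Type} [Group G] [MulAction G M] (Q : GS A G) where
  p : ℕ
  k0 : ℕ
  S : Set M
  an_S : A.An univ Sᶜ
  ne : S.Nonempty
  sinv : ∀ (g : G), ∀ x ∈ S, g • x ∈ S
  S_B : ∀ x ∈ S, x ∉ Q.B (k0 + 20)
  U : M → Set M
  π : M → M → Fin p → ℂ
  U_opn : ∀ x ∈ S, IsOpen (U x)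
  U_mem : ∀ x ∈ S, x ∈ U x
  U_sub : ∀ x ∈ S, U x ⊆ S
  subm : ∀ x ∈ S, ∀ y ∈ U x, A.Subm (HA.self (Fin p → ℂ)) (π x) y
  eq_of : ∀ x ∈ S, ∀ y ∈ U x, ∀ z ∈ U x, (y, z) ∈ Q.V k0 → π x y = π x z
  of_eq : ∀ x ∈ S, ∀ y ∈ U x, ∀ z ∈ U x, π x y = π x z → ∀ k, (y, z) ∈ Q.V k

/-- (C1) existence of the charts -/
def ChStmt : Prop :=
  ∀ (E : Type) [NormedAddCommGroup E] [NormedSpace ℂ E] [FiniteDimensional ℂ E]
    (M : Type) [TopologicalSpace M] [T2Space M] [ConnectedSpace M] (A : HA E M) [Countable A.ι]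
    (G : Type) [Group G] [MulAction G M] (Q : GS A G), Nonempty Q.Ch

namespace TP

variable [FiniteDimensional ℂ E] [MeasurableSpace E] [BorelSpace E] {μ : Measure E}
  [μ.IsAddHaarMeasure] {A : HA E M} {G : Type} [Group G] [MulAction G M] (T : TP μ A G)

/-- the graded system of a two-point system -/
structure Lv extends GS A G where
  near : ∀ k x, x ∉ B k → T.Near k x
  R1_sub : ∀ k, T.R1 (k + 2) ⊆ V k
  sub_R1 : ∀ k x y, x ∉ B k → y ∉ B k → (x, y) ∈ V k → (x, y) ∈ T.R1 k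

/-- the output without the wandering case -/
structure Out0 where
  p : ℕ
  L : Leaf G M (Fin p → ℂ)
  act : ∀ g x, L.act g x = g • x
  an_S : A.An univ L.Sᶜ
  subm : ∀ x ∈ L.S, ∀ y ∈ L.U x, A.Subm (HA.self (Fin p → ℂ)) (L.π x) y
  R_sub : ∀ x ∈ L.S, ∀ y ∈ L.S, L.R x y → (x, y) ∈ T.R0
  k0 : ℕ
  far : ∀ k, k0 ≤ k → ∀ x ∈ L.S, ∀ C : Set (M × M), IsCompact C →
    (∀ q ∈ C, q.1 ∈ L.U x ∧ q.2 ∈ L.U x ∧ L.π x q.1 ≠ L.π x q.2) →
    ∃ a : ℝ, ∀ q ∈ C, q ∉ T.cl k a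
  /-- saturations of open sets are open -/
  opn : ∀ y ∈ L.S, ∀ z ∈ L.S, L.R y z → ∀ Z ∈ 𝓝 z, ∀ᶠ y' in 𝓝 y, ∃ z' ∈ Z, L.R y' z'
  /-- the relation is closed in `S × S` -/
  cls : ∀ y ∈ L.S, ∀ z ∈ L.S,
    (y, z) ∈ closure {q : M × M | q.1 ∈ L.S ∧ q.2 ∈ L.S ∧ L.R q.1 q.2} → L.R y z
  /-- the classes are open in the slices of an analytic relation -/
  RR : Set (M × M)
  an_RR : (A.prod A).An univ RR
  sub_RR : ∀ x ∈ L.S, ∀ y ∈ L.S, L.R x y → (x, y) ∈ RR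
  loc_RR : ∀ x ∈ L.S, ∀ y ∈ L.S, L.R x y → ∀ᶠ z in 𝓝 y, (x, z) ∈ RR → L.R x z



end TP

end

end Crest.Agent.X261.Eqv
end

-- ▼ part X261/EqW/Lv
section

/-!
# Row 261, package EQV (helper18), file `Lv`: the graded system of a two-point system
-/

set_option autoImplicit false
set_option linter.unusedSectionVars false
set_option linter.dupNamespace false

open Set Filter Topology MeasureTheory Metric
open scoped ENNReal

namespace Crest.Agent.X261.EqW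

open Crest.Agent.X261.Ans Crest.Agent.X261.Psh Crest.Agent.X261.Eqv

noncomputable section

variable {E : Type} [NormedAddCommGroup E] [NormedSpace ℂ E] [FiniteDimensional ℂ E]
  [MeasurableSpace E] [BorelSpace E] {μ : Measure E} [μ.IsAddHaarMeasure]
  {M : Type} [TopologicalSpace M] {A : HA E M} {G : Type} [Group G] [MulAction G M]
  (T : TP μ A G)

/-- Skoda: the points where `φ` is finite are good -/
theorem good_of_ne_bot {x : M} (hx : T.φ x ≠ ⊥) : T.Good x := fun N hN => by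
  obtain ⟨i, hi⟩ := A.cover x
  have hz := (A.e i).map_source hi
  have h := (li_iff (μ := μ) (u := T.φ) T.wb hN hz).2
    (Sk.exists_nhds μ (T.φ_psh i) ((A.e i).open_target.mem_nhds hz) (by
      rw [(A.e i).left_inv hi]
      exact EReal.add_ne_bot_iff.2 ⟨hx, EReal.coe_ne_bot _⟩) hN.le)
  rwa [(A.e i).left_inv hi] at h

theorem good_of_mem {x : M} (hx : x ∈ T.M0) : T.Good x := good_of_ne_bot T (T.M0_fin x hx)

theorem li_inv {N : ℝ} (g : G) {x : M} (h : LI μ A (fun y => eN N (T.φ y)) (g • x)) :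
    LI μ A (fun y => eN N (T.φ y)) x := by
  have := h.comp' (A := A) (f := fun y => g • y) (g := fun y => g⁻¹ • y)
    (T.smul_cont g).continuousAt (T.hol g⁻¹ _)
    (Eventually.of_forall fun y => inv_smul_smul g y)
    (Eventually.of_forall fun y => smul_inv_smul g y)
  simpa only [T.φ_inv] using this

theorem wb2 : WB (A.prod A) fun i q => T.wt i.1 q.1 + T.wt i.2 q.2 := by
  intro i q hq
  obtain ⟨C1, h1⟩ := T.wt_bdd i.1 q.1 hq.1
  obtain ⟨C2, h2⟩ := T.wt_bdd i.2 q.2 hq.2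
  refine ⟨C1 + C2, ?_⟩
  filter_upwards [continuousAt_fst.eventually h1, continuousAt_snd.eventually h2] with w h3 h4
    using (abs_add_le _ _).trans (add_le_add h3 h4)

/-- **the graded system** -/
theorem lv [Nontrivial E] [Nonempty M] : Nonempty T.Lv := by
  choose N1 hN1 using T.exists_pole
  choose N2 hN2 using T.exists_near
  let κ : ℕ → ℝ := fun k => max (max (N1 k) (N2 k)) 1
  have hκ : ∀ k, 0 < κ k := fun k => lt_max_of_lt_right one_pos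
  let NB : ℕ → Set M := fun k => {x | ¬ LI μ A (fun y => eN (κ k) (T.φ y)) x}
  let W : ℕ → Set (M × M) := fun k =>
    {q | ¬ LI (μ.prod μ) (A.prod A) (fun z => eN (κ k) (T.u k z)) q}
  let B : ℕ → Set M := fun k => ⋃ j ∈ Iic k, NB j
  let V : ℕ → Set (M × M) := fun k => ⋂ j ∈ Iic k, ⋂ g : G,
    (fun q : M × M => (g • q.1, g • q.2)) ⁻¹' W j ∩ (fun q : M × M => (g • q.2, g • q.1)) ⁻¹' W j
  have hV : ∀ k x y, (x, y) ∈ V k ↔
      ∀ j ≤ k, ∀ g : G, (g • x, g • y) ∈ W j ∧ (g • y, g • x) ∈ W j := fun k x y => by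
    simp only [V, mem_iInter, mem_inter_iff, mem_preimage, mem_Iic]
  have hB : ∀ k x, x ∉ B k → LI μ A (fun y => eN (κ k) (T.φ y)) x := fun k x hx =>
    not_not.1 fun h => hx (mem_biUnion (mem_Iic.2 le_rfl) h)
  have hmono : Monotone B := fun k l h => biUnion_subset_biUnion_left (Iic_subset_Iic.2 h)
  have hanti : Antitone V := fun k l h => biInter_subset_biInter_left (Iic_subset_Iic.2 h)
  have near : ∀ k x, x ∉ B k → T.Near k x := fun k x hx =>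
    hN2 k _ ((le_max_right _ _).trans (le_max_left _ _)) (hκ k) x (hB k x hx)
  have R1_sub : ∀ k, T.R1 (k + 2) ⊆ V k := fun k ⟨x, y⟩ hq => (hV k x y).2 fun j hj g => by
    have h1 : (g • x, g • y) ∈ T.R1 (j + 2) := fun a =>
      TP.cl_inv g (TP.R1_anti (by omega) hq a)
    have h2 := hN1 j _ ((le_max_left _ _).trans (le_max_left _ _)) (hκ j)
    exact ⟨h2 _ h1, h2 _ fun a => TP.cl_symm (h1 a)⟩
  have sub_R1 : ∀ k x y, x ∉ B k → y ∉ B k → (x, y) ∈ V k → (x, y) ∈ T.R1 k := by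
    intro k x y hx hy h a
    by_contra h1
    have h2 := ((hV k x y).1 h k le_rfl 1).1
    rw [one_smul, one_smul] at h2
    exact h2 (TP.li_of_not_cl (hκ k) (hB k x hx) (hB k y hy) h1)
  have hW : ∀ k, (A.prod A).An univ (W k) := fun k => an_ni (wb2 T) (T.u_psh k) (hκ k)
  have h1 : ∀ (g : G) (q : M × M), (A.prod A).Hol A (fun q : M × M => g • q.1) q := fun g q =>
    (T.hol g q.1).comp (HA.hol_fst A A q)
  have h2 : ∀ (g : G) (q : M × M), (A.prod A).Hol A (fun q : M × M => g • q.2) q := fun g q =>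
    (T.hol g q.2).comp (HA.hol_snd A A q)
  refine ⟨{
      hol := T.hol
      K := T.K
      K_cpt := T.K_cpt
      K_cov := T.K_cov
      B := B
      V := V
      an_B := fun k x _ => HA.anAt_biUnion (finite_Iic k) fun j _ =>
        an_ni T.wb T.φ_psh (hκ j) x (mem_univ x)
      ne_B := fun k h => ?_
      B_mono := hmono
      B_inv := fun k g x hx => ?_
      an_V := fun k => HA.an_biInter isOpen_univ fun j _ => HA.an_iInter isOpen_univ fun g =>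
        ((hW j).preimage (fun q _ => (h1 g q).prodMk (h2 g q)) (mapsTo_univ _ _)).inter
          ((hW j).preimage (fun q _ => (h2 g q).prodMk (h1 g q)) (mapsTo_univ _ _))
      V_anti := hanti
      diag := fun k x => R1_sub k (T.diag_R1 _ x)
      symm := fun k x y h => (hV k y x).2 fun j hj g => ((hV k x y).1 h j hj g).symm
      inv := fun k g x y h => (hV k _ _).2 fun j hj g' => by
        simpa only [mul_smul] using (hV k x y).1 h j hj (g' * g)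
      comp := fun k x y z hx hy hz hxy hyz => R1_sub k
        (TP.R1_comp (near _ y hy) (sub_R1 _ x y hx hy hxy) (sub_R1 _ y z hy hz hyz))
      near := near
      R1_sub := R1_sub
      sub_R1 := sub_R1 }⟩
  · obtain ⟨x, -, hx⟩ := T.M0_ae.exists_mem (x := Classical.arbitrary M) univ_mem
    obtain ⟨j, -, hj⟩ := mem_iUnion₂.1 (h ▸ mem_univ x : x ∈ B k)
    exact hj (good_of_mem T hx _ (hκ j))
  · obtain ⟨j, hj, h⟩ := mem_iUnion₂.1 hx
    exact mem_biUnion hj fun h' => h (li_inv T g h')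

end

end Crest.Agent.X261.EqW
end

-- ▼ part X261/EqW/Typ
section

/-!
# Row 261, package EQV (helper18), file `Typ`: almost every point is typical
-/

set_option autoImplicit false
set_option linter.unusedSectionVars false
set_option linter.dupNamespace false

open Set Filter Topology MeasureTheory Metric
open scoped ENNReal

namespace Crest.Agent.X261.EqW

open Crest.Agent.X261.Ans Crest.Agent.X261.Psh Crest.Agent.X261.Eqv

noncomputable section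

variable {E : Type} [NormedAddCommGroup E] [NormedSpace ℂ E] [FiniteDimensional ℂ E]
  [MeasurableSpace E] [BorelSpace E] {μ : Measure E} [μ.IsAddHaarMeasure]
  {M : Type} [TopologicalSpace M] {A : HA E M} {G : Type} [Group G] [MulAction G M]
  (T : TP μ A G)

theorem sl_psh (k : ℕ) (y : M) : PW A T.wt (T.sl k y) := fun i => by
  obtain ⟨j, hj⟩ := A.cover y
  refine ((((T.u_psh k (i, j)).slice_left (A.e j y)).mono fun z hz =>
    ⟨hz, (A.e j).map_source hj⟩).add_const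
      (-(T.φ y).toReal - T.wt j (A.e j y))).congr fun z _ => ?_
  show T.u k ((A.e i).symm z, (A.e j).symm (A.e j y)) +
      ((T.wt i z + T.wt j (A.e j y) : ℝ) : EReal) + _ = T.u k ((A.e i).symm z, y) + _ + _
  rw [(A.e j).left_inv hj, add_assoc, add_assoc, ← EReal.coe_add, ← EReal.coe_add]
  congr 2
  ring

theorem sl_pole (k : ℕ) {y : M} (hy : y ∈ T.M0)
    (he : AE μ A fun x => T.sl k y x = T.Xi k x y + T.φ x) : ∃ c : ℝ, 0 < c ∧ ∀ i,
    y ∈ (A.e i).source → ∃ C : ℝ, ∀ᶠ z in 𝓝[≠] (A.e i y), T.sl k y ((A.e i).symm z) ≤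
      ((c * Real.log ‖z - A.e i y‖ + C : ℝ) : EReal) := by
  obtain ⟨c, hc, hp⟩ := T.pole k
  refine ⟨c, hc, fun i hi => ?_⟩
  have hyt := (A.e i).map_source hi
  obtain ⟨C, V, hV, hp⟩ := hp i _ hyt
  obtain ⟨C', hC'⟩ := T.wt_bdd i _ hyt
  refine ⟨C + C' + C', ?_⟩
  have h0 : ∀ᶠ w in 𝓝 (A.e i y), w ∈ V ∧ |T.wt i w| ≤ C' ∧ w ∈ (A.e i).target :=
    (Filter.Eventually.and hV (hC'.and (HA.ev_target hi)))
  filter_upwards [mem_nhdsWithin_of_mem_nhds h0.eventually_nhds, self_mem_nhdsWithin]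
    with z hz hne
  have hne : z ≠ A.e i y := hne
  have hcont : ContinuousAt (fun w => c * Real.log ‖w - A.e i y‖ + (C + C')) z :=
    (continuousAt_const.mul ((continuousAt_id.sub continuousAt_const).norm.log
      (norm_ne_zero_iff.2 (sub_ne_zero.2 hne)))).add continuousAt_const
  have key := (sl_psh T k y i).le_of_ae μ (A.e i).open_target hz.self_of_nhds.2.2
    (g := fun w => ((c * Real.log ‖w - A.e i y‖ + (C + C') : ℝ) : EReal))
    (continuous_coe_real_ereal.continuousAt.comp hcont).upperSemicontinuousAt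
    (inter_mem hz (isOpen_ne.mem_nhds hne)) (by
      filter_upwards [he i, T.M0_ae i] with w h1 h2 hw
      have hw1 : w ∈ V ∧ |T.wt i w| ≤ C' ∧ w ∈ (A.e i).target := hw.1
      have hw2 : w ≠ A.e i y := hw.2
      have h3 := hp _ (mem_of_mem_nhds hV) w hw1.1 (by rw [(A.e i).left_inv hi]; exact hy)
        (h2 hw1.2.2) ‖w - A.e i y‖ (norm_pos_iff.2 (sub_ne_zero.2 hw2)) (norm_sub_rev _ _).le
      rw [(A.e i).left_inv hi, T.Xi_symm k y hy _ (h2 hw1.2.2), ← h1 hw1.2.2] at h3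
      exact le_coe_mono (add_le_coe h3 le_rfl) (by linarith [(abs_le.1 hw1.2.1).2]))
  exact le_coe_mono (add_coe_le_iff.1 key) (by linarith [(abs_le.1 hz.self_of_nhds.2.1).1])

/-- **almost every point is typical** -/
theorem typ [Countable A.ι] : AE μ A T.Typ := by
  have h1 : AE μ A fun y => ∀ k, AE μ A fun x => x ∈ T.M0 ∧
      T.sl k y x = T.Xi k x y + T.φ x := ae_all fun k =>
    (T.u_eq' k).fub.mono fun y hy => hy.mono fun x hx => ⟨hx.1, by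
      have h2 : T.u k (x, y) =
        T.Xi k x y + (((T.φ x).toReal + (T.φ y).toReal : ℝ) : EReal) := hx.2.2
      rw [TP.sl, h2, add_assoc, ← EReal.coe_add, add_neg_cancel_right, ← T.φ_real hx.1]⟩
  refine (T.M0_ae.and h1).mono fun y ⟨hy, h⟩ => ⟨hy, good_of_mem T hy, fun k => sl_psh T k y,
    fun k x => ?_, fun k => (h k).mono fun _ h => h.2,
    fun k => sl_pole T k hy ((h k).mono fun _ h => h.2)⟩
  have h2 := (sl_psh T k y).le_of_ae (μ := μ) T.φ_psh (x := x) univ_mem 0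
    ((h k).mono fun z hz _ => by
      rw [hz.2, add_comm]
      exact add_le_add le_rfl (T.Xi_le k z hz.1 y hy))
  simpa using h2

end

end Crest.Agent.X261.EqW
end

-- ▼ part X261/Eqv/C1
section

/-!
# Row 261, package EQV (helper30), file `C1`: graphs, germs of biholomorphisms, lifting
-/

set_option autoImplicit false
set_option linter.unusedSectionVars false
set_option linter.dupNamespace false

open Set Filter Topology Metric Module

namespace Crest.Agent.X261.Eqv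

open Crest.Agent.X261.Ans

noncomputable section

/-- an analytic set which is a graph over a somewhere dense set is a holomorphic graph -/
theorem graph_of {p : ℕ} {F : Type} [NormedAddCommGroup F] [NormedSpace ℂ F]
    [FiniteDimensional ℂ F] {Γ : Set ((Fin p → ℂ) × F)} {a : Fin p → ℂ} {b : F}
    (hab : (a, b) ∈ Γ) (hΓ : AnAt Γ (a, b)) {N : Set ((Fin p → ℂ) × F)} (hN : N ∈ 𝓝 (a, b))
    (fn : ∀ s t t', (s, t) ∈ N ∩ Γ → (s, t') ∈ N ∩ Γ → t = t')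
    (op : ∀ O ∈ 𝓝 (a, b), ∃ s, Prod.fst '' (Γ ∩ O) ∈ 𝓝 s) :
    ∃ h : (Fin p → ℂ) → F, AnalyticAt ℂ h a ∧ h a = b ∧ ∀ᶠ s in 𝓝 a, (s, h s) ∈ Γ := by
  have : ProperSpace F := FiniteDimensional.proper ℂ F
  have iso : ∀ᶠ y in 𝓝[≠] (a, b), y ∈ Γ → y.1 ≠ a := by
    filter_upwards [mem_nhdsWithin_of_mem_nhds hN, self_mem_nhdsWithin] with y h1 h2 h3 h4
    refine h2 (Prod.ext h4 (fn a _ _ ?_ ⟨mem_of_mem_nhds hN, hab⟩))
    rw [← h4]; exact ⟨h1, h3⟩
  have img : ∀ W ∈ 𝓝 (a, b), Prod.fst '' (Γ ∩ W) ∈ 𝓝 a := fun W hW =>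
    Dm.image_mem_nhds hΓ analyticAt_fst iso (fun O hO hc => by
      obtain ⟨s, hs⟩ := op O hO
      exact (hc.image fun _ _ => analyticAt_fst).not_mem_nhds s hs) hW
  obtain ⟨N₁, hN₁, hcov⟩ := SDim.cov hΓ ⟨ContinuousLinearMap.fst ℂ _ _, iso⟩
  obtain ⟨ε, hε, hsub⟩ := nhds_basis_closedBall.mem_iff.1
    (inter_mem (inter_mem hN (interior_mem_nhds.2 hN₁)) hΓ.eventually)
  have hK : IsCompact (Γ ∩ closedBall (a, b) ε) := by
    refine (isCompact_closedBall (a, b) ε).of_isClosed_subset ?_ inter_subset_right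
    refine closure_subset_iff_isClosed.1 fun y hy => ?_
    have h1 : y ∈ closedBall (a, b) ε :=
      isClosed_closedBall.closure_subset (closure_mono inter_subset_right hy)
    exact ⟨(hsub h1).2.mem_of_closure (closure_mono inter_subset_left hy), h1⟩
  have hex : ∀ s, ∃ t, s ∈ Prod.fst '' (Γ ∩ closedBall (a, b) ε) →
      (s, t) ∈ Γ ∩ closedBall (a, b) ε := fun s => by
    by_cases h : s ∈ Prod.fst '' (Γ ∩ closedBall (a, b) ε)
    · obtain ⟨q, hq, rfl⟩ := h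
      exact ⟨q.2, fun _ => hq⟩
    · exact ⟨b, fun h' => absurd h' h⟩
  choose h hh using hex
  set U := interior (Prod.fst '' (Γ ∩ closedBall (a, b) ε))
  have haU : a ∈ U := mem_interior_iff_mem_nhds.2 (img _ (closedBall_mem_nhds _ hε))
  have hU : ∀ s ∈ U, (s, h s) ∈ Γ ∩ closedBall (a, b) ε := fun s hs => hh s (interior_subset hs)
  have uq : ∀ s t t', (s, t) ∈ Γ ∩ closedBall (a, b) ε → (s, t') ∈ Γ ∩ closedBall (a, b) ε →
      t = t' := fun s t t' h1 h2 => fn s t t' ⟨(hsub h1.2).1.1, h1.1⟩ ⟨(hsub h2.2).1.1, h2.1⟩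
  have hc : ContinuousOn h U := fun s hs => by
    refine ContinuousAt.continuousWithinAt ?_
    have : Tendsto (fun s => (s, h s)) (𝓝 s) (𝓝 (s, h s)) := by
      refine hK.tendsto_nhds_of_unique_mapClusterPt
        ((isOpen_interior.eventually_mem hs).mono hU) fun q hq hcl => ?_
      have e : q.1 = s := by
        have := hcl.continuousAt_comp continuous_fst.continuousAt
        exact eq_of_nhds_neBot (by simpa [MapClusterPt, ClusterPt, Function.comp_def] using this)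
      refine Prod.ext e (uq s _ _ ?_ (hU s hs))
      rw [← e]; exact hq
    exact (continuous_snd.tendsto _).comp this
  refine ⟨h, graph_hol (Γ := Γ ∩ interior N₁) isOpen_interior hc (fun s hs => ⟨⟨(hU s hs).1,
    (hsub (hU s hs).2).1.2⟩, (hsub (hU s hs).2).2.congr ?_⟩) ?_ a haU,
    uq a _ _ (hU a haU) ⟨hab, mem_closedBall_self hε.le⟩,
    (isOpen_interior.eventually_mem haU).mono fun s hs => (hU s hs).1⟩
  · filter_upwards [isOpen_interior.mem_nhds (hsub (hU s hs).2).1.2] with y hy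
    exact ⟨fun h => ⟨h, hy⟩, fun h => h.1⟩
  · rw [finrank_fin_fun]
    exact hcov.sub (inter_subset_inter_right _ interior_subset)

variable {E F H : Type} [NormedAddCommGroup E] [NormedSpace ℂ E] [FiniteDimensional ℂ E]
  [NormedAddCommGroup F] [NormedSpace ℂ F] [FiniteDimensional ℂ F]
  [NormedAddCommGroup H] [NormedSpace ℂ H] [FiniteDimensional ℂ H]
  {M N P : Type} [TopologicalSpace M] [TopologicalSpace N] [TopologicalSpace P]
  {A : HA E M} {B : HA F N} {C : HA H P}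

/-- germ of biholomorphism -/
structure LB (A : HA E M) (B : HA F N) (f : M → N) (g : N → M) (w : M) (z : N) : Prop where
  eq : f w = z
  hf : A.Hol B f w
  hg : B.Hol A g z
  gf : ∀ᶠ x in 𝓝 w, g (f x) = x
  fg : ∀ᶠ y in 𝓝 z, f (g y) = y

namespace LB

variable {f : M → N} {g : N → M} {w : M} {z : N}

theorem eq' (h : LB A B f g w z) : g z = w := h.eq ▸ h.gf.self_of_nhds

theorem symm (h : LB A B f g w z) : LB B A g f z w := ⟨h.eq', h.hg, h.hf, h.fg, h.gf⟩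

theorem tendsto (h : LB A B f g w z) : Tendsto f (𝓝 w) (𝓝 z) := h.eq ▸ h.hf.1.tendsto

theorem ev (h : LB A B f g w z) : ∀ᶠ x in 𝓝 w, LB A B f g x (f x) := by
  filter_upwards [h.hf.eventually, h.tendsto.eventually h.hg.eventually, h.gf.eventually_nhds,
    h.tendsto.eventually h.fg.eventually_nhds] with x h1 h2 h3 h4 using ⟨rfl, h1, h2, h3, h4⟩

theorem refl (A : HA E M) (w : M) : LB A A (fun x => x) (fun x => x) w w :=
  ⟨rfl, A.hol_id w, A.hol_id w, Eventually.of_forall fun _ => rfl,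
    Eventually.of_forall fun _ => rfl⟩

theorem trans {f' : N → P} {g' : P → N} {u : P} (h : LB A B f g w z) (h' : LB B C f' g' z u) :
    LB A C (fun x => f' (f x)) (fun y => g (g' y)) w u := by
  refine ⟨by rw [h.eq, h'.eq], h'.hf.comp_of_eq h.hf h.eq, h.hg.comp_of_eq h'.hg h'.eq', ?_, ?_⟩
  · filter_upwards [h.gf, h.tendsto.eventually h'.gf] with x h1 h2
    rw [h2, h1]
  · filter_upwards [h'.fg, h'.symm.tendsto.eventually h.fg] with x h1 h2
    rw [h2, h1]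

theorem map_eq (h : LB A B f g w z) : map f (𝓝 w) = 𝓝 z := by
  refine le_antisymm h.tendsto fun s hs => ?_
  filter_upwards [h.fg, h.symm.tendsto.eventually hs] with y h1 h2
  rwa [← h1]

/-- the preimage of a closed nowhere dense set is nowhere dense -/
theorem ex (h : LB A B f g w z) {Z : Set N} (hZ : IsClosed Z) (hd : Dense Zᶜ) {p : M → Prop}
    (hp : ∀ᶠ y in 𝓝 w, p y) : ∃ y, ∀ᶠ y' in 𝓝 y, p y' ∧ f y' ∉ Z := by
  obtain ⟨_, h1, y, h2, rfl⟩ := hd.inter_nhds_nonempty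
    (h.map_eq ▸ image_mem_map (hp.eventually_nhds.and h.ev) :
      f '' {x | (∀ᶠ y in 𝓝 x, p y) ∧ LB A B f g x (f x)} ∈ 𝓝 z)
  exact ⟨y, h2.1.and (h2.2.tendsto.eventually (hZ.isOpen_compl.mem_nhds h1))⟩

theorem ex3 {f₁ g₁ f₂ g₂ : M → M} {x z₁ z₂ : M} (h₁ : LB A A f₁ g₁ x z₁) (h₂ : LB A A f₂ g₂ x z₂)
    {Z : Set M} (hZ : IsClosed Z) (hd : Dense Zᶜ) :
    ∃ᶠ y in 𝓝 x, y ∉ Z ∧ f₁ y ∉ Z ∧ f₂ y ∉ Z := by
  rw [frequently_iff]
  intro O hO
  obtain ⟨y₀, h0⟩ := (refl A x).ex hZ hd ((h₁.ev.and h₂.ev).and hO)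
  obtain ⟨y₁, h1⟩ := h0.self_of_nhds.1.1.1.ex hZ hd h0
  obtain ⟨y₂, h2⟩ := h1.self_of_nhds.1.1.1.2.ex hZ hd h1
  have := h2.self_of_nhds
  exact ⟨y₂, this.1.1.1.2, this.1.1.2, this.1.2, this.2⟩

end LB

/-- product coordinates of a submersion -/
theorem exists_prod {π : M → F} {w : M} (h : A.Subm (HA.self F) π w) :
    ∃ (ρ : M → Fin (finrank ℂ E - finrank ℂ F) → ℂ)
      (σ : F × (Fin (finrank ℂ E - finrank ℂ F) → ℂ) → M),
      LB A (HA.self _) (fun y => (π y, ρ y)) σ w (π w, ρ w) := by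
  obtain ⟨i, hi⟩ := A.cover w
  obtain ⟨s, L, hs, hL⟩ := Rg.exists_compl ((HA.subm_self_iff h.1 hi).1 h)
  obtain rfl : s = finrank ℂ E - finrank ℂ F := by omega
  have h1 : A.Hol (HA.self _) (fun y => L (A.e i y)) w := (HA.hol_chart hi).an_comp (L.analyticAt _)
  have h2 := h.1.pair h1
  have h3 : A.Subm (HA.self _) (fun y => (π y, L (A.e i y))) w := by
    rw [HA.subm_self_iff h2 hi]
    have e : (fun z => (π ((A.e i).symm z), L (A.e i ((A.e i).symm z)))) =ᶠ[𝓝 (A.e i w)]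
        fun z => (π ((A.e i).symm z), L z) :=
      (HA.ev_target hi).mono fun z hz => by simp only [(A.e i).right_inv hz]
    rw [e.fderiv_eq, (((HA.hol_self_iff hi).1 h.1).differentiableAt.hasFDerivAt.prodMk
      L.hasFDerivAt).fderiv]
    refine (LinearMap.injective_iff_surjective_of_finrank_eq_finrank
      (f := ((fderiv ℂ (fun z => π ((A.e i).symm z)) (A.e i w)).prod L).toLinearMap)
      (by rw [finrank_prod, finrank_fin_fun]; omega)).1 ((injective_iff_map_eq_zero _).2 ?_)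
    exact fun v hv => hL v (congrArg Prod.fst hv) (congrArg Prod.snd hv)
  obtain ⟨σ, k1, k2, k3⟩ := h3.inv (by rw [finrank_prod, finrank_fin_fun]; omega)
  exact ⟨fun y => L (A.e i y), σ, rfl, h2, k1, k2, k3⟩

/-- lifting of germs of biholomorphisms of the transversals -/
theorem exists_lift {π π' : M → F} {w z : M} (h : A.Subm (HA.self F) π w)
    (h' : A.Subm (HA.self F) π' z) {k k' : F → F}
    (hk : LB (HA.self F) (HA.self F) k k' (π w) (π' z)) :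
    ∃ f g : M → M, LB A A f g w z ∧ ∀ᶠ x in 𝓝 w, π' (f x) = k (π x) := by
  obtain ⟨ρ, σ, h1⟩ := exists_prod h
  obtain ⟨ρ', σ', h2⟩ := exists_prod h'
  have h3 : LB (HA.self _) (HA.self _) (fun q => (k q.1, q.2 + (ρ' z - ρ w)))
      (fun q => (k' q.1, q.2 - (ρ' z - ρ w))) (π w, ρ w) (π' z, ρ' z) := by
    refine ⟨by simp [hk.eq], HA.self_hol_iff.2 ?_, HA.self_hol_iff.2 ?_, ?_, ?_⟩
    · exact ((HA.self_hol_iff.1 hk.hf).comp_of_eq analyticAt_fst rfl).prod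
        (analyticAt_snd.add analyticAt_const)
    · exact ((HA.self_hol_iff.1 hk.hg).comp_of_eq analyticAt_fst rfl).prod
        (analyticAt_snd.sub analyticAt_const)
    · filter_upwards [(continuous_fst.tendsto _).eventually hk.gf] with q hq
      simp [hq]
    · filter_upwards [(continuous_fst.tendsto _).eventually hk.fg] with q hq
      simp [hq]
  refine ⟨_, _, (h1.trans h3).trans h2.symm, ?_⟩
  filter_upwards [(h1.trans h3).tendsto.eventually h2.fg] with x hx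
  exact congrArg Prod.fst hx

end

end Crest.Agent.X261.Eqv
end

-- ▼ part X261/Eqv/C2
section

/-!
# Row 261, package EQV (helper30), file `C2`: the leaf relation of a graded system
-/

set_option autoImplicit false
set_option linter.unusedSectionVars false
set_option linter.dupNamespace false

open Set Filter Topology Metric Module

namespace Crest.Agent.X261.Eqv

open Crest.Agent.X261.Ans Crest.Agent.X261.Loc

noncomputable section

variable {E : Type} [NormedAddCommGroup E] [NormedSpace ℂ E] [FiniteDimensional ℂ E]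
  {M : Type} [TopologicalSpace M] [PreconnectedSpace M] {A : HA E M}
  {G : Type} [Group G] [MulAction G M]

namespace GS

variable {Q : GS A G}

/-- the leaf relation -/
def LR (Q : GS A G) (w z : M) : Prop :=
  ∃ f g : M → M, LB A A f g w z ∧ ∀ᶠ x in 𝓝 w, ∀ k, (x, f x) ∈ Q.V k

theorem ex3 (Q : GS A G) (k : ℕ) {f₁ g₁ f₂ g₂ : M → M} {x z₁ z₂ : M} (h₁ : LB A A f₁ g₁ x z₁)
    (h₂ : LB A A f₂ g₂ x z₂) : ∃ᶠ y in 𝓝 x, y ∉ Q.B k ∧ f₁ y ∉ Q.B k ∧ f₂ y ∉ Q.B k :=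
  h₁.ex3 h₂ (Q.an_B k).isClosed ((Q.an_B k).dense_compl (Q.ne_B k))

theorem mem_of_freq {Z : Set (M × M)} (hZ : IsClosed Z) {f g : M → M} {x z : M}
    (h : LB A A f g x z) (hf : ∃ᶠ y in 𝓝 x, (y, f y) ∈ Z) : (x, z) ∈ Z :=
  hZ.mem_of_frequently_of_tendsto hf (tendsto_id.prodMk_nhds h.tendsto)

theorem comp_ev {f₁ g₁ f₂ g₂ : M → M} {x z₁ z₂ : M} (h₁ : LB A A f₁ g₁ x z₁)
    (h₂ : LB A A f₂ g₂ x z₂) (e₁ : ∀ᶠ y in 𝓝 x, ∀ k, (y, f₁ y) ∈ Q.V k)
    (e₂ : ∀ᶠ y in 𝓝 x, ∀ k, (f₁ y, f₂ y) ∈ Q.V k) : ∀ᶠ y in 𝓝 x, ∀ k, (y, f₂ y) ∈ Q.V k := by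
  filter_upwards [h₁.ev, h₂.ev, e₁.eventually_nhds, e₂.eventually_nhds] with y a1 a2 a3 a4 k
  refine mem_of_freq (Q.an_V k).isClosed a2 ?_
  refine ((Q.ex3 (k + 4) a1 a2).and_eventually (a3.and a4)).mono fun u hu => ?_
  exact Q.comp k _ _ _ hu.1.1 hu.1.2.1 hu.1.2.2 (hu.2.1 _) (hu.2.2 _)

theorem lb_smul (Q : GS A G) (g : G) (x : M) :
    LB A A (fun y => g • y) (fun y => g⁻¹ • y) x (g • x) :=
  ⟨rfl, Q.hol g x, Q.hol _ _, Eventually.of_forall fun y => inv_smul_smul g y,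
    Eventually.of_forall fun y => smul_inv_smul g y⟩

namespace LR

theorem mem {w z : M} (h : Q.LR w z) (k : ℕ) : (w, z) ∈ Q.V k := by
  obtain ⟨f, g, h1, h2⟩ := h
  exact h1.eq ▸ h2.self_of_nhds k

theorem refl (Q : GS A G) (w : M) : Q.LR w w :=
  ⟨_, _, LB.refl A w, Eventually.of_forall fun x k => Q.diag k x⟩

theorem symm {w z : M} (h : Q.LR w z) : Q.LR z w := by
  obtain ⟨f, g, h1, h2⟩ := h
  refine ⟨g, f, h1.symm, ?_⟩
  filter_upwards [h1.fg, h1.symm.tendsto.eventually h2] with y a1 a2 k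
  have := Q.symm k _ _ (a2 k)
  rwa [a1] at this

theorem trans {w z u : M} (h : Q.LR w z) (h' : Q.LR z u) : Q.LR w u := by
  obtain ⟨f, g, h1, h2⟩ := h
  obtain ⟨f', g', h3, h4⟩ := h'
  exact ⟨_, _, h1.trans h3, comp_ev h1 (h1.trans h3) h2 (h1.tendsto.eventually h4)⟩

theorem smul {w z : M} (h : Q.LR w z) (a : G) : Q.LR (a • w) (a • z) := by
  obtain ⟨f, g, h1, h2⟩ := h
  refine ⟨_, _, ((Q.lb_smul a w).symm.trans h1).trans (Q.lb_smul a z), ?_⟩
  filter_upwards [(Q.lb_smul a w).symm.tendsto.eventually h2] with y hy k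
  simpa using Q.inv k a _ _ (hy k)

theorem ev {w z : M} (h : Q.LR w z) : ∃ f g : M → M, LB A A f g w z ∧
    ∀ᶠ x in 𝓝 w, Q.LR x (f x) := by
  obtain ⟨f, g, h1, h2⟩ := h
  exact ⟨f, g, h1, (h1.ev.and h2.eventually_nhds).mono fun x hx => ⟨f, g, hx.1, hx.2⟩⟩

end LR

namespace Ch

variable (C : Q.Ch)

theorem isOpen_S : IsOpen C.S := isClosed_compl_iff.1 C.an_S.isClosed

theorem compS {k : ℕ} (hk : k ≤ C.k0 + 16) {x y z : M} (hx : x ∈ C.S) (hy : y ∈ C.S)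
    (hz : z ∈ C.S) (h1 : (x, y) ∈ Q.V (k + 4)) (h2 : (y, z) ∈ Q.V (k + 4)) : (x, z) ∈ Q.V k :=
  have h : ∀ u ∈ C.S, u ∉ Q.B (k + 4) := fun u hu h => C.S_B u hu (Q.B_mono (by omega) h)
  Q.comp k x y z (h x hx) (h y hy) (h z hz) h1 h2

theorem compS3 {k : ℕ} (hk : k ≤ C.k0 + 12) {x y z u : M} (hx : x ∈ C.S) (hy : y ∈ C.S)
    (hz : z ∈ C.S) (hu : u ∈ C.S) (h1 : (x, y) ∈ Q.V (k + 8)) (h2 : (y, z) ∈ Q.V (k + 8))
    (h3 : (z, u) ∈ Q.V (k + 8)) : (x, u) ∈ Q.V k :=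
  C.compS (by omega) hx hz hu (C.compS (k := k + 4) (by omega) hx hy hz h1 h2)
    (Q.V_anti (by omega) h3)

theorem rel {x y z : M} (hx : x ∈ C.S) (hy : y ∈ C.U x) (hz : z ∈ C.U x) :
    Q.LR y z ↔ C.π x y = C.π x z := by
  refine ⟨fun h => C.eq_of x hx y hy z hz (h.mem _), fun h => ?_⟩
  obtain ⟨f, g, h1, h2⟩ := exists_lift (C.subm x hx y hy) (C.subm x hx z hz)
    (k := fun t => t) (k' := fun t => t) (by rw [← h]; exact LB.refl (HA.self _) (C.π x y))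
  refine ⟨f, g, h1, ?_⟩
  filter_upwards [h2, (C.U_opn x hx).mem_nhds hy,
    h1.tendsto.eventually ((C.U_opn x hx).mem_nhds hz)] with u a1 a2 a3
  exact C.of_eq x hx u a2 _ a3 a1.symm

/-- local sections -/
structure Sec (x w : M) (σ : (Fin C.p → ℂ) → M) : Prop where
  hol : (HA.self _).Hol A σ (C.π x w)
  eq : σ (C.π x w) = w
  ev : ∀ᶠ t in 𝓝 (C.π x w), C.π x (σ t) = t ∧ σ t ∈ C.U x

theorem exists_sec {x w : M} (hx : x ∈ C.S) (hw : w ∈ C.U x) : ∃ σ, C.Sec x w σ := by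
  obtain ⟨σ, h1, h2, h3⟩ := (C.subm x hx w hw).sec
  exact ⟨σ, h1, h2, h3.and (h1.1.eventually ((C.U_opn x hx).mem_nhds (by rwa [h2])))⟩

theorem half {x x' w z : M} (hx : x ∈ C.S) (hx' : x' ∈ C.S) (hw : w ∈ C.U x) (hz : z ∈ C.U x')
    {σ σ' : (Fin C.p → ℂ) → M} (hσ : C.Sec x w σ) (hσ' : C.Sec x' z σ')
    (h : ∃ᶠ q in 𝓝 (w, z), Q.LR q.1 q.2) : ∃ k : (Fin C.p → ℂ) → Fin C.p → ℂ,
      AnalyticAt ℂ k (C.π x w) ∧ k (C.π x w) = C.π x' z ∧
      (∀ᶠ s in 𝓝 (C.π x w), (σ s, σ' (k s)) ∈ Q.V (C.k0 + 4)) ∧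
      ∀ᶠ q in 𝓝 (w, z), q ∈ Q.V (C.k0 + 12) → C.π x' q.2 = k (C.π x q.1) := by
  set Γ : Set ((Fin C.p → ℂ) × (Fin C.p → ℂ)) := {q | (σ q.1, σ' q.2) ∈ Q.V (C.k0 + 4)}
  set N : Set ((Fin C.p → ℂ) × (Fin C.p → ℂ)) := {q | (C.π x (σ q.1) = q.1 ∧ σ q.1 ∈ C.U x) ∧
    C.π x' (σ' q.2) = q.2 ∧ σ' q.2 ∈ C.U x'}
  have hN : N ∈ 𝓝 (C.π x w, C.π x' z) :=
    ((continuous_fst.tendsto (C.π x w, C.π x' z)).eventually hσ.ev).and
      ((continuous_snd.tendsto (C.π x w, C.π x' z)).eventually hσ'.ev)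
  have fn : ∀ s t t', (s, t) ∈ N ∩ Γ → (s, t') ∈ N ∩ Γ → t = t' := fun s t t' h1 h2 => by
    have := C.eq_of x' hx' _ h1.1.2.2 _ h2.1.2.2 (C.compS (by omega) (C.U_sub x' hx' h1.1.2.2)
      (C.U_sub x hx h1.1.1.2) (C.U_sub x' hx' h2.1.2.2) (Q.symm _ _ _ h1.2) h2.2)
    rwa [h1.1.2.1, h2.1.2.1] at this
  have hP : Tendsto (fun q : M × M => (C.π x q.1, C.π x' q.2)) (𝓝 (w, z))
      (𝓝 (C.π x w, C.π x' z)) :=
    ((C.subm x hx w hw).1.1.tendsto.comp (continuous_fst.tendsto (w, z))).prodMk_nhds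
      ((C.subm x' hx' z hz).1.1.tendsto.comp (continuous_snd.tendsto (w, z)))
  have hU : ∀ᶠ q in 𝓝 (w, z), q.1 ∈ C.U x ∧ q.2 ∈ C.U x' :=
    prod_mem_nhds ((C.U_opn x hx).mem_nhds hw) ((C.U_opn x' hx').mem_nhds hz)
  have hΓ : ∀ᶠ q in 𝓝 (w, z), q ∈ Q.V (C.k0 + 12) → (C.π x q.1, C.π x' q.2) ∈ N ∩ Γ := by
    filter_upwards [hU, hP.eventually hN] with q a1 a2 a3
    exact ⟨a2, C.compS3 (by omega) (C.U_sub x hx a2.1.2) (C.U_sub x hx a1.1)
      (C.U_sub x' hx' a1.2) (C.U_sub x' hx' a2.2.2) (C.of_eq x hx _ a2.1.2 _ a1.1 a2.1.1 _) a3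
      (C.of_eq x' hx' _ a1.2 _ a2.2.2 a2.2.1.symm _)⟩
  have hwz : (w, z) ∈ Q.V (C.k0 + 12) :=
    (Q.an_V _).isClosed.closure_subset (mem_closure_iff_frequently.2 (h.mono fun q hq => hq.mem _))
  obtain ⟨k, k1, k2, k3⟩ := graph_of (Γ := Γ) (hΓ.self_of_nhds hwz).2
    (HA.self_anAt.1 (HA.AnAt.preimage (B := A.prod A)
      (f := fun q : (Fin C.p → ℂ) × (Fin C.p → ℂ) => (σ q.1, σ' q.2))
      ((hσ.hol.comp_of_eq (HA.self_hol_iff.2 analyticAt_fst) rfl).prodMk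
        (hσ'.hol.comp_of_eq (HA.self_hol_iff.2 analyticAt_snd) rfl))
      (Q.an_V _ _ (mem_univ _)))) hN fn (fun O hO => by
    obtain ⟨q, ⟨f, g, a1, a2⟩, a3, a4⟩ :=
      (h.and_eventually (hU.and (hΓ.and (hP.eventually hO)).eventually_nhds)).exists
    refine ⟨C.π x q.1, mem_of_superset ((C.subm x hx _ a3.1).image_mem_nhds
      (a2.and ((tendsto_id.prodMk_nhds a1.tendsto).eventually a4))) ?_⟩
    rintro _ ⟨y, hy, rfl⟩
    exact ⟨_, ⟨(hy.2.1 (hy.1 _)).2, hy.2.2⟩, rfl⟩)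
  refine ⟨k, k1, k2, k3, ?_⟩
  have h1 : Tendsto (fun s => (s, k s)) (𝓝 (C.π x w)) (𝓝 (C.π x w, C.π x' z)) :=
    tendsto_id.prodMk_nhds (k2 ▸ k1.continuousAt.tendsto)
  filter_upwards [hΓ, ((continuous_fst.tendsto _).comp hP).eventually ((h1.eventually hN).and k3)]
    with q a1 a2 a3
  exact fn _ _ _ (a1 a3) a2

theorem key {x x' w z : M} (hx : x ∈ C.S) (hx' : x' ∈ C.S) (hw : w ∈ C.U x) (hz : z ∈ C.U x')
    (h : ∃ᶠ q in 𝓝 (w, z), Q.LR q.1 q.2) : ∃ k k' : (Fin C.p → ℂ) → Fin C.p → ℂ,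
      LB (HA.self _) (HA.self _) k k' (C.π x w) (C.π x' z) ∧
      ∀ᶠ q in 𝓝 (w, z), q ∈ Q.V (C.k0 + 12) → C.π x' q.2 = k (C.π x q.1) := by
  obtain ⟨σ, hσ⟩ := C.exists_sec hx hw
  obtain ⟨σ', hσ'⟩ := C.exists_sec hx' hz
  obtain ⟨k, k1, k2, k3, k4⟩ := C.half hx hx' hw hz hσ hσ' h
  obtain ⟨l, l1, l2, l3, -⟩ := C.half hx' hx hz hw hσ' hσ
    ((continuous_swap.tendsto (w, z)).frequently (h.mono fun q hq => hq.symm))
  have tk : Tendsto k (𝓝 (C.π x w)) (𝓝 (C.π x' z)) := k2 ▸ k1.continuousAt.tendsto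
  have tl : Tendsto l (𝓝 (C.π x' z)) (𝓝 (C.π x w)) := l2 ▸ l1.continuousAt.tendsto
  refine ⟨k, l, ⟨k2, HA.self_hol_iff.2 k1, HA.self_hol_iff.2 l1, ?_, ?_⟩, k4⟩
  · filter_upwards [k3, tk.eventually l3, hσ.ev, tk.eventually hσ'.ev,
      (tl.comp tk).eventually hσ.ev] with s a1 a2 a3 a4 a5
    have := C.eq_of x hx _ a3.2 _ a5.2 (C.compS (by omega) (C.U_sub x hx a3.2)
      (C.U_sub x' hx' a4.2) (C.U_sub x hx a5.2) a1 a2)
    rw [a3.1, a5.1] at this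
    exact this.symm
  · filter_upwards [l3, tl.eventually k3, hσ'.ev, tl.eventually hσ.ev,
      (tk.comp tl).eventually hσ'.ev] with s a1 a2 a3 a4 a5
    have := C.eq_of x' hx' _ a3.2 _ a5.2 (C.compS (by omega) (C.U_sub x' hx' a3.2)
      (C.U_sub x hx a4.2) (C.U_sub x' hx' a5.2) a1 a2)
    rw [a3.1, a5.1] at this
    exact this.symm

/-- the leaf relation is closed in `S × S` -/
theorem cls {w z : M} (hw : w ∈ C.S) (hz : z ∈ C.S) (h : ∃ᶠ q in 𝓝 (w, z), Q.LR q.1 q.2) :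
    Q.LR w z := by
  obtain ⟨k, k', h1, h2⟩ := C.key hw hz (C.U_mem w hw) (C.U_mem z hz) h
  obtain ⟨f, g, h3, h4⟩ := exists_lift (C.subm w hw w (C.U_mem w hw))
    (C.subm z hz z (C.U_mem z hz)) h1
  have hUz := (C.U_opn z hz).mem_nhds (C.U_mem z hz)
  obtain ⟨O, o1, o2, o3, o4⟩ := A.exists_preconnected
    (h3.ev.and (h4.and (h3.tendsto.eventually hUz)))
  refine ⟨f, g, h3, (o1.eventually_mem o2).mono fun y hy j => ?_⟩
  obtain ⟨q, ⟨f₁, g₁, a1, a2⟩, a3, a4⟩ := (h.and_eventually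
    (((continuous_fst.tendsto (w, z)).eventually (o1.eventually_mem o2)).and
      (h2.and ((continuous_snd.tendsto (w, z)).eventually hUz)).eventually_nhds)).exists
  refine HA.An.sub_of_mem_nhds (A := A) (Z := (fun y => (y, f y)) ⁻¹' Q.V j)
    ((Q.an_V j).preimage (fun u hu => (A.hol_id u).prodMk (o3 hu).1.hf) (mapsTo_univ _ _))
    o1 o4 a3 ((comp_ev a1 (o3 a3).1 a2 ?_).mono fun u hu => hu j) hy
  filter_upwards [a2, (tendsto_id.prodMk_nhds a1.tendsto).eventually a4, o1.eventually_mem a3]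
    with u b1 b2 b3
  exact C.of_eq z hz _ b2.2 _ (o3 b3).2.2 ((b2.1 (b1 _)).trans (o3 b3).2.1.symm)

theorem hol {x : M} (hx : x ∈ C.S) (a : G) {y z : M} (hy : y ∈ C.U x) (hz : z ∈ C.U x)
    (h : Q.LR (a • y) z) : ∃ h : (Fin C.p → ℂ) → Fin C.p → ℂ, DifferentiableAt ℂ h (C.π x y) ∧
      ∀ᶠ y' in 𝓝 y, ∃ z' ∈ C.U x, Q.LR (a • y') z' ∧ C.π x z' = h (C.π x y') := by
  obtain ⟨σ, hσ⟩ := C.exists_sec hx hy
  obtain ⟨f, g, h1, h2⟩ := h.ev
  have h3 := (Q.lb_smul a y).trans h1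
  refine ⟨fun t => C.π x (f (a • σ t)), (HA.self_hol_iff.1 ((C.subm x hx z hz).1.comp_of_eq
    (h3.hf.comp_of_eq hσ.hol hσ.eq) (by simp only [hσ.eq, h1.eq]))).differentiableAt, ?_⟩
  have e1 : ∀ᶠ u in 𝓝 y, u ∈ C.U x ∧ f (a • u) ∈ C.U x ∧ Q.LR (a • u) (f (a • u)) :=
    ((C.U_opn x hx).eventually_mem hy).and ((h3.tendsto.eventually
      ((C.U_opn x hx).eventually_mem hz)).and ((Q.lb_smul a y).tendsto.eventually h2))
  have t1 : Tendsto (C.π x) (𝓝 y) (𝓝 (C.π x y)) := (C.subm x hx y hy).1.1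
  have t2 : Tendsto σ (𝓝 (C.π x y)) (𝓝 y) := by
    have := hσ.hol.1.tendsto
    rwa [hσ.eq] at this
  filter_upwards [e1, (t2.comp t1).eventually e1, t1.eventually hσ.ev] with u a1 a2 a3
  refine ⟨_, a1.2.1, a1.2.2, (C.rel hx a1.2.1 a2.2.1).1 ?_⟩
  exact (a1.2.2.symm.trans (((C.rel hx a1.1 a3.2).2 a3.1.symm).smul a)).trans a2.2.2

/-- equicontinuity by the continuity method -/
theorem eqc (H : ∀ x ∈ C.S, ∀ K : Set M, IsCompact K → (∀ z ∈ K, z ∈ C.U x ∧ C.π x z ≠ C.π x x) →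
      ∃ V ∈ 𝓝 x, ∀ a : G, (∃ y ∈ V, ∃ z ∈ V, Q.LR (a • y) z) → ∀ y ∈ V, ∀ z ∈ K,
        ¬ Q.LR (a • y) z)
    {x : M} (hx : x ∈ C.S) {W : Set M} (hW : W ∈ 𝓝 x) : ∃ V ∈ 𝓝 x, ∀ a : G,
      (∃ y ∈ V, ∃ z ∈ V, Q.LR (a • y) z) → ∀ y ∈ V, ∃ z ∈ W, Q.LR (a • y) z := by
  have hxU := C.U_mem x hx
  obtain ⟨σ, hσ⟩ := C.exists_sec hx hxU
  obtain ⟨ε, hε, hb⟩ := nhds_basis_closedBall.mem_iff.1 ((hσ.hol.eventually.and hσ.ev).and
    (hσ.hol.1.eventually (p := (· ∈ W)) (by rwa [hσ.eq])))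
  obtain ⟨V₀, hV₀, hH⟩ := H x hx (σ '' (closedBall (C.π x x) ε \ ball (C.π x x) ε))
    (((isCompact_closedBall _ _).diff isOpen_ball).image_of_continuousOn
      fun t ht => (hb ht.1).1.1.1.continuousWithinAt) (by
      rintro _ ⟨t, ht, rfl⟩
      refine ⟨(hb ht.1).1.2.2, fun e => ht.2 ?_⟩
      rw [← (hb ht.1).1.2.1, e]
      exact mem_ball_self hε)
  have back : ∀ z ∈ C.U x, C.π x z ∈ ball (C.π x x) ε → Q.LR z (σ (C.π x z)) := fun z hz h =>
    (C.rel hx hz (hb (ball_subset_closedBall h)).1.2.2).2 (hb (ball_subset_closedBall h)).1.2.1.symm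
  obtain ⟨V, v1, v2, v3, v4⟩ := A.exists_preconnected (inter_mem hV₀ (inter_mem
    ((C.U_opn x hx).mem_nhds hxU) ((C.subm x hx x hxU).1.1.eventually (ball_mem_nhds _ hε))))
  refine ⟨V, v1.mem_nhds v2, fun a ⟨y₀, hy₀, z₀, hz₀, h₀⟩ => ?_⟩
  have hH := hH a ⟨y₀, (v3 hy₀).1, z₀, (v3 hz₀).1, h₀⟩
  suffices h : V ⊆ {y | y ∈ V ∧ ∃ t ∈ closedBall (C.π x x) ε, Q.LR (a • y) (σ t)} from
    fun y hy => let ⟨_, t, ht, h⟩ := h hy; ⟨σ t, (hb ht).2, h⟩
  refine v4.subset_of_closure_inter_subset (isOpen_iff_mem_nhds.2 ?_)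
    ⟨y₀, hy₀, hy₀, _, ball_subset_closedBall (v3 hz₀).2.2,
      h₀.trans (back z₀ (v3 hz₀).2.1 (v3 hz₀).2.2)⟩ fun y hy => ⟨hy.2, ?_⟩
  · rintro y ⟨hy, t, ht, h⟩
    have ht' : t ∈ ball (C.π x x) ε := by
      by_contra h'
      exact hH y (v3 hy).1 _ ⟨t, ⟨ht, h'⟩, rfl⟩ h
    obtain ⟨f, g, h1, h2⟩ := h.ev
    have h3 := ((Q.lb_smul a y).trans h1).tendsto
    filter_upwards [v1.mem_nhds hy, (Q.lb_smul a y).tendsto.eventually h2,
      h3.eventually ((C.U_opn x hx).eventually_mem (hb ht).1.2.2),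
      h3.eventually ((C.subm x hx _ (hb ht).1.2.2).1.1.eventually
        (isOpen_ball.eventually_mem (by rwa [(hb ht).1.2.1])))] with u a1 a2 a3 a4
    exact ⟨a1, _, ball_subset_closedBall a4, a2.trans (back _ a3 a4)⟩
  · by_contra hn
    push Not at hn
    have : ∀ᶠ u in 𝓝 y, ∀ t ∈ closedBall (C.π x x) ε, ¬ Q.LR (a • u) (σ t) := by
      refine (isCompact_closedBall _ _).eventually_forall_of_forall_eventually fun t ht => ?_
      have h1 : ∀ᶠ q in 𝓝 (a • y, σ t), ¬ Q.LR q.1 q.2 := not_frequently.1 fun h => hn t ht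
        (C.cls (C.sinv a y (C.U_sub x hx (v3 hy.2).2.1)) (C.U_sub x hx (hb ht).1.2.2) h)
      exact (((Q.lb_smul a y).tendsto.comp (continuous_fst.tendsto (y, t))).prodMk_nhds
        ((hb ht).1.1.1.tendsto.comp (continuous_snd.tendsto (y, t)))).eventually h1
    obtain ⟨u, h1, -, t, ht, h2⟩ := mem_closure_iff_nhds.1 hy.1 _ this
    exact h1 t ht h2

/-- the leaf structure -/
def leaf (H : ∀ x ∈ C.S, ∀ K : Set M, IsCompact K → (∀ z ∈ K, z ∈ C.U x ∧ C.π x z ≠ C.π x x) →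
      ∃ V ∈ 𝓝 x, ∀ a : G, (∃ y ∈ V, ∃ z ∈ V, Q.LR (a • y) z) → ∀ y ∈ V, ∀ z ∈ K,
        ¬ Q.LR (a • y) z) : Leaf G M (Fin C.p → ℂ) where
  act := fun g x => g • x
  act_one := one_smul G
  act_mul := mul_smul
  cont := fun g => continuous_iff_continuousAt.2 fun x => (Q.hol g x).1
  S := C.S
  opn := C.isOpen_S
  conn := compl_compl C.S ▸ C.an_S.preconnected_compl
  ne := C.ne
  sinv := C.sinv
  R := Q.LR
  refl := fun x _ => LR.refl Q x
  symm := fun _ _ _ _ h => h.symm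
  trans := fun _ _ _ _ _ _ h h' => h.trans h'
  rinv := fun g _ _ _ _ h => h.smul g
  U := C.U
  π := C.π
  U_opn := C.U_opn
  U_mem := C.U_mem
  U_sub := C.U_sub
  π_cont := fun x hx y hy => (C.subm x hx y hy).1.1.continuousWithinAt
  π_opn := fun x hx y hy _ hW => (C.subm x hx y hy).image_mem_nhds hW
  π_rel := fun _ hx _ hy _ hz => C.rel hx hy hz
  hol := fun _ hx a _ hy _ hz h => C.hol hx a hy hz h
  eqc := fun _ hx _ hW => C.eqc H hx hW

end Ch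

end GS

end

end Crest.Agent.X261.Eqv
end

-- ▼ part X261/Psh/Ext
section

/-!
# Row 261, package PSH (helper78), file `Ext`

Removable sets.  `rext Z u x` is the `limsup` of `u` at `x` off `Z`.
* `PPol D Z` : locally pluripolar sets; analytic sets without interior are pluripolar;
* `isPsh_rext`, `isPsh_rext_sth`, `isPsh_rext_an` : psh functions off a relatively closed
  pluripolar (`σ`-thin, analytic) set which are locally bounded above extend;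
* `isPsh_of_off`, `isPsh_of_cont_off` ... : criteria for a given function.
-/

set_option autoImplicit false
set_option linter.dupNamespace false
set_option linter.unusedSectionVars false

open Set Filter Topology Metric MeasureTheory Module
open scoped ENNReal

noncomputable section

namespace Crest.Agent.X261.Psh

open Crest.Agent.R275.FL884 (DiscIn)
open Crest.Agent.R281.Thn_280 (STh)

section top

variable {X : Type*} [TopologicalSpace X] {Z Z' : Set X} {u u' : X → EReal} {x : X}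

/-- upper limit off `Z` -/
def rext (Z : Set X) (u : X → EReal) (x : X) : EReal := limsup u (𝓝[Zᶜ] x)

theorem rext_le {a : EReal} (h : ∀ᶠ y in 𝓝 x, y ∉ Z → u y ≤ a) : rext Z u x ≤ a :=
  limsup_le_of_le (by isBoundedDefault) (eventually_nhdsWithin_iff.2 h)

theorem ev_lt_of_rext_lt {a : EReal} (h : rext Z u x < a) : ∀ᶠ y in 𝓝 x, y ∉ Z → u y < a :=
  eventually_nhdsWithin_iff.1 (eventually_lt_of_limsup_lt h)


theorem le_rext (hx : x ∉ Z) : u x ≤ rext Z u x :=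
  le_of_forall_gt_imp_ge_of_dense fun _ ha => ((ev_lt_of_rext_lt ha).self_of_nhds hx).le

theorem rext_le_of_usc (hu : UpperSemicontinuousAt u' x) (h : ∀ᶠ y in 𝓝 x, y ∉ Z → u y ≤ u' y) :
    rext Z u x ≤ u' x :=
  le_of_forall_gt_imp_ge_of_dense fun a ha => rext_le (by
    filter_upwards [hu a ha, h] with y h1 h2 hy using (h2 hy).trans h1.le)

theorem rext_eq (hu : UpperSemicontinuousAt u x) (hx : x ∉ Z) : rext Z u x = u x :=
  le_antisymm (rext_le_of_usc hu (Eventually.of_forall fun _ _ => le_rfl)) (le_rext hx)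




end top

variable {E : Type*} [NormedAddCommGroup E] [NormedSpace ℂ E] [FiniteDimensional ℂ E]
  {D D' Z Z' : Set E} {u : E → EReal}


/-- locally pluripolar sets -/
def PPol (D Z : Set E) : Prop :=
  ∀ x ∈ D, ∃ (V : Set E) (v : E → EReal), IsOpen V ∧ x ∈ V ∧ IsPsh V v ∧ Dn V v ∧
    ∀ y ∈ V, y ∈ Z → v y = ⊥

theorem PPol.mono (h : PPol D Z) (hD : D' ⊆ D) (hZ : Z' ⊆ Z) : PPol D' Z' := fun x hx =>
  let ⟨V, v, h1, h2, h3, h4, h5⟩ := h x (hD hx)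
  ⟨V, v, h1, h2, h3, h4, fun y hy hyZ => h5 y hy (hZ hyZ)⟩

theorem PPol.congr (h : PPol D Z) (hD : IsOpen D) (hZ : ∀ y ∈ D, y ∈ Z' → y ∈ Z) : PPol D Z' :=
  fun x hx =>
    let ⟨V, v, h1, h2, h3, h4, h5⟩ := h x hx
    ⟨V ∩ D, v, h1.inter hD, ⟨h2, hx⟩, h3.mono inter_subset_left, h4.mono inter_subset_left,
      fun y hy hyZ => h5 y hy.1 (hZ y hy.2 hyZ)⟩

theorem PPol.union (h : PPol D Z) (h' : PPol D Z') : PPol D (Z ∪ Z') := fun x hx => by
  obtain ⟨V, v, h1, h2, h3, h4, h5⟩ := h x hx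
  obtain ⟨V', v', h1', h2', h3', h4', h5'⟩ := h' x hx
  have a := h3.mono (inter_subset_left (t := V'))
  have b := h3'.mono (inter_subset_right (s := V))
  refine ⟨V ∩ V', _, h1.inter h1', ⟨h2, h2'⟩, a.add b, Dn.add a b (h1.inter h1')
    (h4.mono inter_subset_left) (h4'.mono inter_subset_right), fun y hy hyZ => ?_⟩
  rcases hyZ with hyZ | hyZ
  · simp [h5 y hy.1 hyZ]
  · simp [h5' y hy.2 hyZ]




theorem PPol.freq (h : PPol D Z) {x : E} (hx : x ∈ D) : ∃ᶠ y in 𝓝 x, y ∉ Z := by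
  obtain ⟨V, v, h1, h2, -, h4, h5⟩ := h x hx
  exact ((h4 x h2).and_eventually (h1.mem_nhds h2)).mono fun y hy hyZ => hy.1 (h5 y hy.2 hyZ)

/-- **extension across a relatively closed pluripolar set** -/
theorem isPsh_rext (hD : IsOpen D) (hZ : PPol D Z) (ho : IsOpen (D \ Z)) (hu : IsPsh (D \ Z) u)
    (hb : ∀ x ∈ D, ∃ C : ℝ, ∀ᶠ y in 𝓝 x, y ∉ Z → u y ≤ C) : IsPsh D (rext Z u) := by
  classical
  have : ProperSpace E := FiniteDimensional.proper ℂ E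
  borelize E
  refine IsPsh.of_nhds fun x₀ hx₀ => ?_
  obtain ⟨V₀, v₀, g1, g2, g3, g4, g5⟩ := hZ x₀ hx₀
  obtain ⟨C, hC⟩ := hb x₀ hx₀
  obtain ⟨c, hc, -⟩ := EReal.lt_iff_exists_real_btwn.1 (g3.lt_top x₀ g2)
  obtain ⟨V, hV1, hV, hx⟩ := _root_.eventually_nhds_iff.1 ((hC.and (g3.uscAt g1 g2 _ hc)).and
    (inter_mem (g1.mem_nhds g2) (hD.mem_nhds hx₀)))
  refine ⟨V, hV.mem_nhds hx, ?_⟩
  set v : E → EReal := fun y => v₀ y + ((-c : ℝ) : EReal) with hv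
  have hVV : V ⊆ V₀ := fun y hy => (hV1 y hy).2.1
  have v1 : IsPsh V v := (g3.mono hVV).add_const _
  have v2 : ∀ y ∈ V, v y ≤ (0 : ℝ) := fun y hy => add_coe_le_iff.2 (by simpa using (hV1 y hy).1.2.le)
  have hO : IsOpen (V \ Z) := by
    have : V \ Z = V ∩ (D \ Z) := by
      ext y; exact ⟨fun h => ⟨h.1, (hV1 y h.1).2.2, h.2⟩, fun h => ⟨h.1, h.2.2⟩⟩
    rw [this]; exact hV.inter ho
  have hu' : IsPsh (V \ Z) u := hu.mono fun y hy => ⟨(hV1 y hy.1).2.2, hy.2⟩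
  set e : ℕ → ℝ := fun k => 1 / ((k : ℝ) + 1) with he
  have e0 : ∀ k, 0 < e k := fun k => by positivity
  set w : ℕ → E → EReal := fun k y => if y ∈ Z then ⊥ else u y + (e k : EReal) * v y with hw
  have w1 : ∀ k, IsPsh (V \ Z) (w k) := fun k =>
    (hu'.add ((v1.mono sdiff_subset).smul (e0 k).le)).congr fun y hy => by simp [hw, hy.2]
  have w2 : ∀ k, ∀ y ∈ V, y ∉ Z → w k y ≤ u y := fun k y hy hyZ => by
    simp only [hw, hyZ, if_false]
    simpa using add_le_add (le_refl (u y)) (coe_mul_le (e0 k).le (v2 y hy))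
  have w3 : ∀ k, ∀ y ∈ V, w k y ≤ C := fun k y hy => by
    by_cases hyZ : y ∈ Z
    · simp [hw, hyZ]
    · exact (w2 k y hy hyZ).trans ((hV1 y hy).1.1 hyZ)
  have w4 : ∀ k, IsPsh V (w k) := by
    intro k
    refine IsPsh.of_lsub (fun y hy a ha => ?_) (fun y hy => (w3 k y hy).trans_lt
      (EReal.coe_lt_top C)) fun y hy d => ?_
    · by_cases hyZ : y ∈ Z
      · obtain ⟨b, -, hb⟩ := EReal.lt_iff_exists_real_btwn.1 (bot_le.trans_lt ha)
        have h1 : v y < (((b - C) / e k : ℝ) : EReal) := by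
          simp only [hv, g5 y (hVV hy) hyZ, EReal.bot_add]; exact EReal.bot_lt_coe _
        filter_upwards [v1.usc y hy _ h1, self_mem_nhdsWithin] with z h2 hz
        by_cases hzZ : z ∈ Z
        · simpa [hw, hzZ] using bot_le.trans_lt hb
        · simp only [hw, hzZ, if_false]
          refine (add_le_coe ((hV1 z hz).1.1 hzZ) (coe_mul_le (e0 k).le h2.le)).trans_lt ?_
          rwa [mul_div_cancel₀ _ (e0 k).ne', add_sub_cancel]
      · exact nhdsWithin_le_nhds ((w1 k).uscAt hO ⟨hy, hyZ⟩ a ha)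
    · by_cases hyZ : y ∈ Z
      · exact Eventually.frequently (Eventually.of_forall fun _ _ _ _ => by simp [hw, hyZ])
      · exact (w1 k).sub.freq (hO.mem_nhds ⟨hy, hyZ⟩) d
  have hU : IsPsh V (rlim ⊤ w) := isPsh_rlim hV (Eventually.of_forall fun k => (w4 k).sub)
    fun y hy => rlim_lt_top (hV.mem_nhds hy) (Eventually.of_forall w3)
  have h1 : ∀ y ∈ V \ Z, u y ≤ rlim ⊤ w y := fun y hy => by
    refine hu'.le_of_ae_on Measure.addHaar hO (usc_rlim.upperSemicontinuousOn _) ?_ hy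
    filter_upwards [g3.dn_ae Measure.addHaar g1 g4] with z h2 hz
    have h3 : v z = ((v₀ z).toReal - c : ℝ) := by
      rw [sub_eq_add_neg, EReal.coe_add, EReal.coe_toReal (g3.lt_top z (hVV hz.1)).ne
        (h2 (hVV hz.1))]
    have h4 : ∀ k, u z + ((e k * ((v₀ z).toReal - c) : ℝ) : EReal) ≤ rlim ⊤ w z := fun k => by
      have := le_rlim_top (u := w) k z
      simp only [hw, hz.2, if_false, h3] at this
      rwa [EReal.coe_mul]
    have h5 : Tendsto (fun k => e k * ((v₀ z).toReal - c)) atTop (𝓝 0) := by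
      simpa [he] using tendsto_one_div_add_atTop_nhds_zero_nat.mul_const ((v₀ z).toReal - c)
    induction hz' : u z with
    | bot => exact bot_le
    | top => exact absurd (hu'.lt_top z hz) (by simp [hz'])
    | coe a =>
      have h6 := (continuous_coe_real_ereal.tendsto _).comp (h5.const_add a)
      rw [add_zero] at h6
      refine le_of_tendsto' h6 fun k => ?_
      simpa [hz'] using h4 k
  refine hU.congr fun y hy => le_antisymm (le_of_forall_gt_imp_ge_of_dense fun a ha => ?_) ?_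
  · refine rlim_le_of (inter_mem (ev_lt_of_rext_lt ha) (hV.mem_nhds hy))
      (Eventually.of_forall fun k z hz => ?_)
    by_cases hzZ : z ∈ Z
    · simp [hw, hzZ]
    · exact (w2 k z hz.2 hzZ).trans (hz.1 hzZ).le
  · refine rext_le_of_usc (usc_rlim y) ?_
    filter_upwards [hV.mem_nhds hy] with z hz hzZ using h1 z ⟨hz, hzZ⟩

theorem IsPsh.rext_eqOn (hu : IsPsh (D \ Z) u) (ho : IsOpen (D \ Z)) :
    EqOn (rext Z u) u (D \ Z) := fun _ hx => rext_eq (hu.uscAt ho hx) hx.2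

theorem bdd_of_usc (h1 : UpperSemicontinuousOn u D) (h2 : ∀ x ∈ D, u x < ⊤) (hD : IsOpen D)
    {x : E} (hx : x ∈ D) : ∃ C : ℝ, ∀ᶠ y in 𝓝 x, y ∉ Z → u y ≤ C := by
  obtain ⟨c, hc, -⟩ := EReal.lt_iff_exists_real_btwn.1 (h2 x hx)
  have := h1 x hx _ hc
  rw [hD.nhdsWithin_eq hx] at this
  exact ⟨c, this.mono fun _ hy _ => hy.le⟩




/-! ### `σ`-thin sets -/






section an

variable {E : Type} [NormedAddCommGroup E] [NormedSpace ℂ E] [FiniteDimensional ℂ E]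
  {D Z : Set E} {u : E → EReal}

/-- analytic sets without interior points are pluripolar -/
theorem ppol_an (h : Ans.An D Z) (hd : ∀ x ∈ D, ∃ᶠ y in 𝓝 x, y ∉ Z) : PPol D Z := by
  intro x hx
  obtain ⟨r, hr, -, hc⟩ := (h x hx).exists_ball univ_mem
  obtain ⟨y, hyZ, hy⟩ := ((hd x hx).and_eventually (ball_mem_nhds x hr)).exists
  obtain ⟨f, hf, hf0⟩ := hc y hy hyZ
  have h1 := isPsh_log_norm isOpen_ball hf.1.differentiableOn
  exact ⟨_, _, isOpen_ball, mem_ball_self hr, h1, h1.dn_of_conn isOpen_ball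
    (convex_ball x r).isPreconnected ⟨y, hy, by simpa using hf0⟩,
    fun z hz hzZ => by simp [hf.2 z hz hzZ]⟩

theorem isOpen_diff_an (hD : IsOpen D) (h : Ans.An D Z) : IsOpen (D \ Z) := by
  refine isOpen_iff_mem_nhds.2 fun x hx => inter_mem (hD.mem_nhds hx.1) ?_
  obtain ⟨W, h1, h2, h3⟩ := h x hx.1
  by_contra hcon
  exact hx.2 (h3.mem_of_closure (h1.mem_nhds h2) (mem_closure_iff_frequently.2 hcon))

/-- **extension across an analytic set** -/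
theorem isPsh_rext_an (hD : IsOpen D) (h : Ans.An D Z) (hd : ∀ x ∈ D, ∃ᶠ y in 𝓝 x, y ∉ Z)
    (hu : IsPsh (D \ Z) u) (hb : ∀ x ∈ D, ∃ C : ℝ, ∀ᶠ y in 𝓝 x, y ∉ Z → u y ≤ C) :
    IsPsh D (rext Z u) := isPsh_rext hD (ppol_an h hd) (isOpen_diff_an hD h) hu hb


end an

end Crest.Agent.X261.Psh
end
end

-- ▼ part X261/EqW/Main
section

/-!
# Row 261, package EQV, the wandering case (helper18)

* `EqW.bdd`  : in the wandering case a saturated open set is relatively compact;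
* `EqW.exZ`  : bounded classes lie in compact connected analytic sets;
* `EqW.wand` : the field `wand` of `Eqv.TP.Out`.
-/

set_option autoImplicit false
set_option linter.unusedSectionVars false
set_option linter.dupNamespace false

open Set Filter Topology MeasureTheory Metric
open scoped ENNReal

namespace Crest.Agent.X261.EqW

open Crest.Agent.X261.Ans Crest.Agent.X261.Psh Crest.Agent.X261.Eqv Crest.Agent.X261.Loc

noncomputable section

variable {E : Type} [NormedAddCommGroup E] [NormedSpace ℂ E] [FiniteDimensional ℂ E]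
  [MeasurableSpace E] [BorelSpace E] {μ : Measure E} [μ.IsAddHaarMeasure]
  {M : Type} [TopologicalSpace M] {A : HA E M} {G : Type} [Group G] [MulAction G M]

theorem add_neg_self (a : EReal) (b : ℝ) : a + (b : EReal) + ((-b : ℝ) : EReal) = a := by
  rw [add_assoc, ← EReal.coe_add, add_neg_cancel, EReal.coe_zero, add_zero]

theorem neg_add_self (a : EReal) (b : ℝ) : a + ((-b : ℝ) : EReal) + (b : EReal) = a := by
  rw [add_assoc, ← EReal.coe_add, neg_add_cancel, EReal.coe_zero, add_zero]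

/-- gluing `s` (on `T`) with `max s (f - b)` (off `T`), extended across `Z` -/
theorem glue {D Z T : Set E} (hD : IsOpen D) (hZ : An D Z) (hd : ∀ x ∈ D, ∃ᶠ y in 𝓝 x, y ∉ Z)
    {s f : E → EReal} (hs : IsPsh D s) (hf : IsPsh D f) (hsf : ∀ z ∈ D, s z ≤ f z) {b : ℝ}
    (hb : 0 ≤ b) (h1 : ∀ z ∈ D, z ∉ Z → z ∉ T → ∀ᶠ w in 𝓝 z, w ∉ T)
    (h2 : ∀ z ∈ D, z ∉ Z → z ∈ T → ∀ᶠ w in 𝓝 z, w ∉ T → f w ≤ s w + b) :
    ∃ g : E → EReal, IsPsh D g ∧ ∀ z ∈ D, z ∉ Z →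
      g z ≤ f z ∧ (z ∉ T → f z ≤ g z + b) ∧ (z ∈ T → g z = s z) := by
  classical
  set g : E → EReal := fun z => if z ∈ T then s z else max (s z) (f z + ((-b : ℝ) : EReal))
    with hg
  have hle : ∀ z ∈ D, g z ≤ f z := fun z hz => by
    by_cases h : z ∈ T
    · simpa [hg, h] using hsf z hz
    · simp only [hg, h, if_false]
      refine max_le (hsf z hz) ?_
      calc _ ≤ f z + ((0 : ℝ) : EReal) :=
            add_le_add le_rfl (EReal.coe_le_coe_iff.2 (by linarith))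
        _ = f z := by simp
  have hp : IsPsh (D \ Z) g := by
    refine IsPsh.of_nhds fun z hz => ?_
    by_cases h : z ∈ T
    · refine ⟨_, inter_mem (hD.mem_nhds hz.1) (h2 z hz.1 hz.2 h),
        (hs.mono inter_subset_left).congr fun w hw => ?_⟩
      by_cases h' : w ∈ T
      · simp [hg, h']
      · simp only [hg, h', if_false]
        refine (max_eq_left ?_).symm
        exact (add_le_add (hw.2 h') le_rfl).trans_eq (add_neg_self _ _)
    · refine ⟨_, inter_mem (hD.mem_nhds hz.1) (h1 z hz.1 hz.2 h),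
        ((hs.sup (hf.add_const (-b))).mono inter_subset_left).congr fun w hw => ?_⟩
      have h' : w ∉ T := hw.2
      simp only [hg, h', if_false]
  refine ⟨rext Z g, isPsh_rext_an hD hZ hd hp fun x hx => ?_, fun z hz hzZ => ?_⟩
  · obtain ⟨C, hC⟩ := bdd_of_usc (Z := Z) hf.usc hf.lt_top hD hx
    exact ⟨C, by
      filter_upwards [hC, hD.mem_nhds hx] with y h3 h4 h5 using (hle y h4).trans (h3 h5)⟩
  rw [hp.rext_eqOn (isOpen_diff_an hD hZ) ⟨hz, hzZ⟩]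
  refine ⟨hle z hz, fun h => ?_, fun h => by simp [hg, h]⟩
  simp only [hg, h, if_false]
  exact (neg_add_self _ _).symm.trans_le (add_le_add (le_max_right _ _) le_rfl)

variable (T : TP μ A G)

theorem near_of_good {x : M} (hx : T.Good x) (k : ℕ) : T.Near k x := by
  obtain ⟨N, hN⟩ := T.exists_near k
  have h : 0 < max N 1 := lt_max_of_lt_right one_pos
  exact hN _ (le_max_left _ _) h x (hx _ h)

/-- the poles of the slices, with a uniform constant -/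
theorem pole (k : ℕ) : ∃ c : ℝ, 0 < c ∧ ∀ y, T.Typ y → ∀ i, y ∈ (A.e i).source → ∃ C : ℝ,
    ∀ᶠ z in 𝓝[≠] (A.e i y), T.sl k y ((A.e i).symm z) + (T.wt i z : ℝ) ≤
      ((c * Real.log ‖z - A.e i y‖ + C : ℝ) : EReal) := by
  obtain ⟨c, hc, hp⟩ := T.pole k
  refine ⟨c, hc, fun y hy i hi => ?_⟩
  have hyt := (A.e i).map_source hi
  obtain ⟨C, V, hV, hp⟩ := hp i _ hyt
  obtain ⟨C', hC'⟩ := T.wt_bdd i _ hyt
  refine ⟨C + C', ?_⟩
  have h0 : ∀ᶠ w in 𝓝 (A.e i y), w ∈ V ∧ |T.wt i w| ≤ C' ∧ w ∈ (A.e i).target :=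
    (Filter.Eventually.and hV (hC'.and (HA.ev_target hi)))
  filter_upwards [mem_nhdsWithin_of_mem_nhds h0.eventually_nhds, self_mem_nhdsWithin]
    with z hz hne
  have hne : z ≠ A.e i y := hne
  have hcont : ContinuousAt (fun w => c * Real.log ‖w - A.e i y‖ + (C + C')) z :=
    (continuousAt_const.mul ((continuousAt_id.sub continuousAt_const).norm.log
      (norm_ne_zero_iff.2 (sub_ne_zero.2 hne)))).add continuousAt_const
  refine (hy.psh k i).le_of_ae μ (A.e i).open_target hz.self_of_nhds.2.2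
    (g := fun w => ((c * Real.log ‖w - A.e i y‖ + (C + C') : ℝ) : EReal))
    (continuous_coe_real_ereal.continuousAt.comp hcont).upperSemicontinuousAt
    (inter_mem hz (isOpen_ne.mem_nhds hne)) ?_
  filter_upwards [hy.eq k i, T.M0_ae i] with w h1 h2 hw
  have hw1 : w ∈ V ∧ |T.wt i w| ≤ C' ∧ w ∈ (A.e i).target := hw.1
  have hw2 : w ≠ A.e i y := hw.2
  have h3 := hp _ (mem_of_mem_nhds hV) w hw1.1 (by rw [(A.e i).left_inv hi]; exact hy.mem)
    (h2 hw1.2.2) ‖w - A.e i y‖ (norm_pos_iff.2 (sub_ne_zero.2 hw2)) (norm_sub_rev _ _).le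
  rw [(A.e i).left_inv hi, T.Xi_symm k y hy.mem _ (h2 hw1.2.2), ← h1 hw1.2.2] at h3
  exact le_coe_mono (add_le_coe h3 le_rfl) (by linarith [(abs_le.1 hw1.2.1).2])

/-- the lower bound for points related to a far pair -/
theorem shell (k : ℕ) (a : ℝ) : ∃ b : ℝ, 0 ≤ b ∧ ∀ w w' x y : M, (w, w') ∉ T.cl k a →
    (w, x) ∈ T.R0 → (y, w') ∈ T.R0 → x ∈ T.M0 → y ∈ T.M0 → T.Near (k + 4) x →
    T.Near (k + 4) y → ((-b : ℝ) : EReal) ≤ T.Xi (k + 4) x y := by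
  obtain ⟨b1, h1⟩ := T.cl_comp k a
  obtain ⟨b2, h2⟩ := T.cl_comp (k + 2) b1
  refine ⟨max b2 0, le_max_right _ _, fun w w' x y hw hx hy hx0 hy0 hxn hyn => ?_⟩
  by_contra h
  have h3 : (x, y) ∈ T.cl (k + 4) b2 :=
    TP.cl_anti (le_max_left b2 0) (TP.mem_cl_of hx0 hy0 (le_of_lt (lt_of_not_ge h)))
  exact hw (h1 w y w' (hyn.anti (by omega)) (h2 w x y hxn (hx _ _) h3) (hy _ _))

variable {F : Type} [NormedAddCommGroup F] [NormedSpace ℂ F] (L : Leaf G M F)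

/-- in the wandering case a saturated open set is relatively compact -/
theorem bdd [Nontrivial E] [T2Space M] [PreconnectedSpace M] [Countable A.ι]
    (act : ∀ g x, L.act g x = g • x) (an_S : A.An univ L.Sᶜ)
    (R_sub : ∀ x ∈ L.S, ∀ y ∈ L.S, L.R x y → (x, y) ∈ T.R0) (typ : AE μ A T.Typ) {k0 : ℕ}
    (far : ∀ x ∈ L.S, ∀ C : Set (M × M), IsCompact C →
      (∀ q ∈ C, q.1 ∈ L.U x ∧ q.2 ∈ L.U x ∧ L.π x q.1 ≠ L.π x q.2) →
      ∃ a : ℝ, ∀ q ∈ C, q ∉ T.cl k0 a)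
    (hop : ∀ x ∈ L.S, ∀ y ∈ L.S, L.R x y → ∀ W ∈ 𝓝 y, ∀ᶠ x' in 𝓝 x,
      ∃ y' ∈ W, y' ∈ L.S ∧ L.R x' y')
    (hcl : ∀ x ∈ L.S, ∀ y ∈ L.S, (∃ᶠ q in 𝓝 (x, y), q.1 ∈ L.S ∧ q.2 ∈ L.S ∧ L.R q.1 q.2) →
      L.R x y)
    (hW : L.Wand) : ∃ O : Set M, IsOpen O ∧ O.Nonempty ∧ O ⊆ L.S ∧
      (∀ x ∈ O, ∀ y ∈ L.S, L.R x y → y ∈ O) ∧ ∃ C : Set M, IsCompact C ∧ O ⊆ C := by
  obtain ⟨W, hWo, ⟨x0, hx0⟩, hWS, hW⟩ := hW
  have := A.locallyCompact
  have := A.secondCountable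
  have hS0 := hWS hx0
  have hUo := L.U_opn x0 hS0
  obtain ⟨N, hNn, hNs, hN⟩ := local_compact_nhds
    ((hWo.inter hUo).mem_nhds ⟨hx0, L.U_mem x0 hS0⟩)
  have hNU : N ⊆ L.U x0 := fun w hw => (hNs hw).2
  have hNS : N ⊆ L.S := fun w hw => hWS (hNs hw).1
  set π := L.π x0 with hπ
  set o := π x0 with ho
  obtain ⟨r, hr, hball⟩ := Metric.mem_nhds_iff.1 (L.π_opn x0 hS0 x0 (L.U_mem x0 hS0) N hNn)
  have hπc : ContinuousOn (fun w => dist (π w) o) N :=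
    (continuous_id.dist continuous_const).comp_continuousOn ((L.π_cont x0 hS0).mono hNU)
  have hcp : ∀ I : Set ℝ, IsClosed I → IsCompact (N ∩ (fun w => dist (π w) o) ⁻¹' I) :=
    fun I hI => hN.of_isClosed_subset (hπc.preimage_isClosed_of_isClosed hN.isClosed hI)
      inter_subset_left
  let To : ℝ → Set M := fun t => {x | x ∈ L.S ∧ ∃ w ∈ N, L.R x w ∧ dist (π w) o < t}
  let Tc : Set M := {x | x ∈ L.S ∧ ∃ w ∈ N, L.R x w ∧ dist (π w) o ≤ r / 2}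
  have hTo : ∀ t ≤ r, IsOpen (To t) := by
    intro t ht
    refine isOpen_iff_mem_nhds.2 fun x ⟨hx, w, hw, hR, hd⟩ => ?_
    have h1 : L.U x0 ∩ π ⁻¹' ball o t ∈ 𝓝 w := inter_mem (hUo.mem_nhds (hNU hw))
      (((L.π_cont x0 hS0).continuousAt (hUo.mem_nhds (hNU hw))).preimage_mem_nhds
        (isOpen_ball.mem_nhds hd))
    filter_upwards [hop x hx w (hNS hw) hR _ h1, L.opn.mem_nhds hx]
      with x' ⟨y', hy', hyS, hR'⟩ hx'
    obtain ⟨w', hw', he⟩ := hball (ball_subset_ball ht hy'.2)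
    refine ⟨hx', w', hw', L.trans _ hx' _ hyS _ (hNS hw') hR'
      ((L.π_rel x0 hS0 _ hy'.1 _ (hNU hw')).2 he.symm), ?_⟩
    have he' : π w' = π y' := he
    rw [he']
    exact hy'.2
  have hTc : ∀ x ∈ L.S, x ∉ Tc → ∀ᶠ x' in 𝓝 x, x' ∉ Tc := by
    intro x hx hxc
    have h1 := (hcp (Iic (r / 2)) isClosed_Iic).eventually_forall_of_forall_eventually
      (x₀ := x) (P := fun a b => ¬ (a ∈ L.S ∧ b ∈ L.S ∧ L.R a b)) fun w hw =>
        not_frequently.1 fun h => hxc ⟨hx, w, hw.1, hcl x hx w (hNS hw.1) h, hw.2⟩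
    filter_upwards [h1] with x' h2 ⟨h3, w, hw, hR, hd⟩ using h2 w ⟨hw, hd⟩ ⟨h3, hNS hw, hR⟩
  have hO := hTo (r / 4) (by linarith)
  have hOc : To (r / 4) ⊆ Tc := fun x ⟨hx, w, hw, hR, hd⟩ => ⟨hx, w, hw, hR, by linarith⟩
  have hcO : Tc ⊆ To r := fun x ⟨hx, w, hw, hR, hd⟩ => ⟨hx, w, hw, hR, by linarith⟩
  refine ⟨To (r / 4), hO, ⟨x0, hS0, x0, mem_of_mem_nhds hNn, L.refl x0 hS0, by
      rw [← ho, dist_self]; linarith⟩, fun x hx => hx.1,
    fun x ⟨hx, w, hw, hR, hd⟩ y hy hxy =>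
      ⟨hy, w, hw, L.trans _ hy _ hx _ (hNS hw) (L.symm _ hx _ hy hxy) hR, hd⟩, ?_⟩
  obtain ⟨K', hK', hKK'⟩ := exists_compact_superset T.K_cpt
  by_cases hΓ : {h : G | ∃ p ∈ interior K', h • p ∈ To (r / 4)}.Finite
  · refine ⟨_, hΓ.isCompact_biUnion fun h _ => hK'.image (T.smul_cont h), fun y hy => ?_⟩
    obtain ⟨g, hg⟩ := T.K_cov y
    exact mem_iUnion₂.2 ⟨g⁻¹, ⟨g • y, hKK' hg, by rwa [inv_smul_smul]⟩, g • y,
      interior_subset (hKK' hg), inv_smul_smul g y⟩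
  exfalso
  -- the shell bound
  obtain ⟨a, ha⟩ := far x0 hS0 _
    ((hcp (Ici (r / 2)) isClosed_Ici).prod (hcp (Iic (r / 4)) isClosed_Iic)) fun q hq =>
      ⟨hNU hq.1.1, hNU hq.2.1, fun he => by
        have h1 : r / 2 ≤ dist (π q.1) o := hq.1.2
        have h2 : dist (π q.2) o ≤ r / 4 := hq.2.2
        have he' : π q.1 = π q.2 := he
        rw [he'] at h1
        linarith⟩
  obtain ⟨b, hb, hsh⟩ := shell T k0 a
  have hsm : ∀ (g : G), ∀ x ∈ L.S, g • x ∈ L.S := fun g x hx => act g x ▸ L.sinv g x hx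
  have hlow : ∀ (g : G) (y : M), T.Typ y → g • y ∈ To (r / 4) → ∀ x, g • x ∈ To r → g • x ∉ Tc →
      T.φ x ≤ T.sl (k0 + 4) y x + b := by
    intro g y hy ⟨hyS, w', hw', hR', hd'⟩ x hx hxc
    have hc := (T.smul_cont g).continuousAt (x := x)
    refine T.φ_psh.le_of_ae (μ := μ) (hy.psh _) (inter_mem
      (hc.preimage_mem_nhds ((hTo r le_rfl).mem_nhds hx)) (hc.eventually (hTc _ hx.1 hxc))) b
      ((typ.and (hy.eq (k0 + 4))).mono fun z ⟨hz, he⟩ ⟨⟨hzS, w, hw, hR, _⟩, hzc⟩ => ?_)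
    have hd : r / 2 ≤ dist (π w) o := le_of_lt (lt_of_not_ge fun h => hzc ⟨hzS, w, hw, hR, h⟩)
    have h1 := hsh w w' (g • z) (g • y) (ha (w, w') ⟨⟨hw, hd⟩, hw', hd'.le⟩)
      (R_sub _ (hNS hw) _ hzS (L.symm _ hzS _ (hNS hw) hR)) (R_sub _ hyS _ (hNS hw') hR')
      (T.M0_inv g z hz.mem) (T.M0_inv g y hy.mem) ((near_of_good T hz.good _).inv g)
      ((near_of_good T hy.good _).inv g)
    rw [T.Xi_inv _ g z hz.mem y hy.mem] at h1
    rw [he]
    refine le_trans (le_of_eq ?_) (add_le_add (add_le_add h1 le_rfl) le_rfl)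
    rw [add_comm _ (T.φ z), neg_add_self]
  -- the sequence
  let η0 := Set.Infinite.natEmbedding _ hΓ
  have hx : ∀ k, ∃ x, x ∈ K' ∧ (η0 k : G) • x ∈ To (r / 4) ∧ T.Typ x := fun k => by
    obtain ⟨p, hp, hp'⟩ := (η0 k).2
    obtain ⟨x, h1, h2⟩ := typ.exists_mem (inter_mem (mem_interior_iff_mem_nhds.1 hp)
      ((T.smul_cont (η0 k)).continuousAt.preimage_mem_nhds (hO.mem_nhds hp')))
    exact ⟨x, h1.1, h1.2, h2⟩
  choose x hxK hxO hxT using hx
  obtain ⟨z, -, ψ, hψ, hz⟩ := hK'.tendsto_subseq hxK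
  obtain ⟨i, hi⟩ := A.cover z
  obtain ⟨k1, hk1⟩ := eventually_atTop.1 (hz.eventually (HA.ev_source hi))
  let σ : ℕ → ℕ := fun k => ψ (k + k1)
  have hσ : Function.Injective σ := fun a b h => by
    have := hψ.injective h
    omega
  have hsrc : ∀ k, x (σ k) ∈ (A.e i).source := fun k => hk1 _ (Nat.le_add_left _ _)
  have hae : AE μ A fun y => y ∉ L.Sᶜ := ae_of_cov (an_S.cov_of_ne fun h =>
    (h ▸ mem_univ x0 : x0 ∈ L.Sᶜ) hS0)
  have hcs : ∀ (g : G), ∀ w ∈ (A.e i).target,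
      ContinuousAt (fun w => g • (A.e i).symm w) w := fun g w hw =>
    (T.smul_cont g).continuousAt.comp ((A.e i).continuousAt_symm hw)
  have hG := fun k => glue (Z := (A.e i).symm ⁻¹' L.Sᶜ)
    (T := (fun w => (η0 (σ k) : G) • (A.e i).symm w) ⁻¹' Tc) (A.e i).open_target
    (fun w hw => (an_S _ (mem_univ _)).chart hw)
    (fun w hw => by
      have := (HA.fr_chart ((A.e i).map_target hw)).1 (hae.freq ((A.e i).symm w))
      rwa [(A.e i).right_inv hw] at this)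
    ((hxT (σ k)).psh (k0 + 4) i) (T.φ_psh i)
    (fun w _ => add_le_add ((hxT (σ k)).le _ _) le_rfl) hb
    (fun w hw h1 h2 => (hcs _ w hw).eventually (hTc _ (hsm _ _ (not_not.1 h1)) h2))
    (fun w hw _ h2 => by
      filter_upwards [(hcs _ w hw).preimage_mem_nhds ((hTo r le_rfl).mem_nhds (hcO h2))]
        with v h3 h4
      rw [add_right_comm]
      exact add_le_add (hlow _ _ (hxT _) (hxO _) _ h3 h4) le_rfl)
  choose Gk hGp hGk using hG
  obtain ⟨c, hc, hpole⟩ := pole T (k0 + 4)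
  have hNpos : 0 < 4 * (Module.finrank ℂ E : ℝ) / c + 1 := by positivity
  refine Wand.wand μ (A.e i).open_target ((A.e i).map_source hi) (T.φ_psh i) hGp
    (x := fun k => A.e i (x (σ k)))
    (((A.e i).continuousAt hi).tendsto.comp (hz.comp (tendsto_add_atTop_nat k1)))
    (C := 0) (a := b) (c := c) hNpos.le (by rw [add_mul, div_mul_cancel₀ _ hc.ne']; linarith)
    (fun k => ?_) ?_ (fun k => ?_) fun k => ?_
  · filter_upwards [hae i] with w h1 hw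
    simpa using (hGk k w hw (h1 hw)).1
  · filter_upwards [hae i] with w h1 hw
    have hwS : (A.e i).symm w ∈ L.S := not_not.1 (h1 hw)
    have hsub : {k | (η0 (σ k) : G) • (A.e i).symm w ∈ Tc}.Subsingleton := by
      intro k ⟨hk, u, hu, hR, _⟩ j ⟨hj, v, hv, hR', _⟩
      by_contra hne
      refine hW ((η0 (σ j) : G) * (η0 (σ k) : G)⁻¹) (fun h => hne ?_) u (hNs hu).1 v (hNs hv).1 ?_
      · exact (hσ (η0.injective (Subtype.ext (mul_inv_eq_one.1 h)))).symm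
      · have h2 := L.rinv ((η0 (σ j) : G) * (η0 (σ k) : G)⁻¹) _ hk _ (hNS hu) hR
        rw [act _ (_ • _), mul_smul, inv_smul_smul] at h2
        have h3 := L.sinv ((η0 (σ j) : G) * (η0 (σ k) : G)⁻¹) _ (hNS hu)
        exact L.trans _ h3 _ hj _ (hNS hv) (L.symm _ hj _ h3 h2) hR'
    have h4 := hsub.finite.compl_mem_cofinite
    rw [Nat.cofinite_eq_atTop] at h4
    filter_upwards [h4] with k hk using (hGk k w hw (h1 hw)).2.1 hk
  · obtain ⟨C, hC⟩ := hpole _ (hxT (σ k)) i (hsrc k)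
    refine ⟨C, ?_⟩
    have h1 : ∀ᶠ y in 𝓝 (x (σ k)), (η0 (σ k) : G) • y ∈ To (r / 4) :=
      (T.smul_cont _).continuousAt.preimage_mem_nhds (hO.mem_nhds (hxO _))
    filter_upwards [hC, mem_nhdsWithin_of_mem_nhds (((HA.ev_chart (hsrc k)).1 h1).and
      (HA.ev_target (hsrc k)))] with w h2 ⟨h3, h4⟩
    have h5 := hsm (η0 (σ k) : G)⁻¹ _ h3.1
    rw [inv_smul_smul] at h5
    rw [(hGk k w h4 (not_not.2 h5)).2.2 (hOc h3)]
    exact h2
  · refine (li_iff T.wb hNpos ((A.e i).map_source (hsrc k))).1 ?_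
    rw [(A.e i).left_inv (hsrc k)]
    exact (hxT _).good _ hNpos

/-- bounded classes lie in compact connected analytic sets -/
theorem exZ [Nontrivial E] [T2Space M] (an_S : A.An univ L.Sᶜ)
    (R_sub : ∀ x ∈ L.S, ∀ y ∈ L.S, L.R x y → (x, y) ∈ T.R0) {k0 : ℕ}
    (far : ∀ x ∈ L.S, ∀ C : Set (M × M), IsCompact C →
      (∀ q ∈ C, q.1 ∈ L.U x ∧ q.2 ∈ L.U x ∧ L.π x q.1 ≠ L.π x q.2) →
      ∃ a : ℝ, ∀ q ∈ C, q ∉ T.cl k0 a) :
    ∃ N : ℝ, 0 < N ∧ ∀ x ∈ L.S, LI μ A (fun y => eN N (T.φ y)) x → ∀ C : Set M, IsCompact C →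
      (∀ y ∈ L.S, L.R x y → y ∈ C) → ∃ Z : Set M, IsCompact Z ∧ IsPreconnected Z ∧
        A.An univ Z ∧ x ∈ Z ∧ ∀ᶠ y in 𝓝 x, L.R x y → y ∈ Z := by
  obtain ⟨N1, hN1⟩ := T.exists_pole (k0 + 2)
  obtain ⟨N2, hN2⟩ := T.exists_near (k0 + 2)
  set N := max (max N1 N2) 1 with hN
  have hN0 : 0 < N := lt_max_of_lt_right one_pos
  refine ⟨N, hN0, fun x hx hli C hC hxC => ?_⟩
  have hnear := hN2 N ((le_max_right _ _).trans (le_max_left _ _)) hN0 x hli
  have hwb : WB (A.prod A) fun i q => T.wt i.1 q.1 + T.wt i.2 q.2 := by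
    intro i q hq
    obtain ⟨C1, h1⟩ := T.wt_bdd i.1 q.1 hq.1
    obtain ⟨C2, h2⟩ := T.wt_bdd i.2 q.2 hq.2
    refine ⟨C1 + C2, ?_⟩
    filter_upwards [continuousAt_fst.eventually h1, continuousAt_snd.eventually h2] with w h3 h4
      using (abs_add_le _ _).trans (add_le_add h3 h4)
  set Zx : Set M := (fun y => (x, y)) ⁻¹'
    {q | ¬ LI (μ.prod μ) (A.prod A) (fun z => eN N (T.u (k0 + 2) z)) q} with hZx
  have hZ : A.An univ Zx := (an_ni hwb (T.u_psh (k0 + 2)) hN0).preimage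
    (fun y _ => HA.hol_inr A A x y) fun _ _ => mem_univ _
  have hin : ∀ y, (x, y) ∈ T.R1 (k0 + 4) → y ∈ Zx := fun y hy =>
    hN1 N ((le_max_left _ _).trans (le_max_left _ _)) hN0 _ hy
  set B : Set M := L.Sᶜ ∪ {y | ¬ LI μ A (fun y => eN N (T.φ y)) y} with hB
  have hBa : A.An univ B := an_S.union (an_ni T.wb T.φ_psh hN0)
  have hxB : x ∉ B := fun h => h.elim (fun h => h hx) fun h => h hli
  have hS : ∀ y, y ∉ B → y ∈ L.S := fun y hy => not_not.1 fun h => hy (Or.inl h)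
  have hR1 : ∀ y ∈ Zx, y ∉ B → (x, y) ∈ T.R1 (k0 + 2) := fun y hy hyB a => by
    by_contra h
    exact hy (TP.li_of_not_cl hN0 hli (not_not.1 fun h => hyB (Or.inr h)) h)
  have hloc : ∀ y ∈ Zx, y ∉ B → ∀ᶠ y' in 𝓝 y, y' ∈ Zx → y' ∉ B → L.R y y' := by
    intro y hy hyB
    have hyS := hS y hyB
    filter_upwards [(L.U_opn y hyS).mem_nhds (L.U_mem y hyS)] with y' hU hy' hyB'
    refine (L.π_rel y hyS y (L.U_mem y hyS) y' hU).2 ?_
    by_contra hne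
    obtain ⟨a, ha⟩ := far y hyS {(y, y')} isCompact_singleton fun q hq => by
      rw [mem_singleton_iff.1 hq]
      exact ⟨L.U_mem y hyS, hU, hne⟩
    exact ha _ rfl (TP.R1_comp hnear (fun a => TP.cl_symm (hR1 y hy hyB a)) (hR1 y' hy' hyB') a)
  have hxZ : x ∈ Zx := hin x (T.diag_R1 _ x)
  have hcomp : ∀ Y, A.Comp univ Zx Y → x ∈ Y → Y ⊆ C := by
    intro Y hY hxY
    obtain ⟨hYZ, d, hd⟩ := hY.irr isOpen_univ hZ
    obtain ⟨-, hc, hcl⟩ := (hd.dich isOpen_univ hBa).resolve_left fun h =>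
      hxB (h ⟨mem_univ _, hxY⟩)
    have hP : ∀ y ∈ {y | y ∈ univ ∧ A.Reg Y d y} \ B, y ∈ Zx ∧ y ∉ B := fun y hy =>
      ⟨hYZ hy.1.2.mem, hy.2⟩
    obtain ⟨y0, h1, h2⟩ := mem_closure_iff_nhds.1 (hcl ⟨mem_univ _, hxY⟩) _ (hloc x hxZ hxB)
    refine fun y hy => closure_minimal (fun v hv => ?_) hC.isClosed (hcl ⟨mem_univ _, hy⟩)
    have h3 : L.R y0 v := hc.induction₂' L.R (fun u hu => by
        filter_upwards [mem_nhdsWithin_of_mem_nhds (hloc u (hP u hu).1 hu.2),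
          self_mem_nhdsWithin] with u' h4 h5
        have h6 := h4 (hP u' h5).1 h5.2
        exact ⟨h6, L.symm _ (hS u hu.2) _ (hS u' h5.2) h6⟩)
      (fun u u' u'' a1 a2 a3 => L.trans _ (hS u a1.2) _ (hS u' a2.2) _ (hS u'' a3.2)) h2 hv
    exact hxC v (hS v hv.2)
      (L.trans _ hx _ (hS y0 h2.2) _ (hS v hv.2) (h1 (hP y0 h2).1 h2.2) h3)
  have hZa : A.An univ (⋃₀ {Y | A.Comp univ Zx Y ∧ x ∈ Y}) :=
    HA.an_sUnion_comp isOpen_univ hZ fun Y hY => hY.1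
  obtain ⟨Y0, hY0⟩ := HA.comp_cover isOpen_univ hZ (mem_univ x) hxZ
  refine ⟨_, hC.of_isClosed_subset hZa.isClosed (sUnion_subset fun Y hY => hcomp Y hY.1 hY.2),
    isPreconnected_sUnion x _ (fun Y hY => hY.2) fun Y hY => ?_, hZa, ⟨Y0, hY0, hY0.2⟩, ?_⟩
  · obtain ⟨-, d, hd⟩ := hY.1.irr isOpen_univ hZ
    have h1 : IsPreconnected {y | y ∈ univ ∧ A.Reg Y d y} := hd.2.2.1
    exact h1.subset_closure (fun y hy => hy.2.mem) fun y hy => hd.2.2.2 ⟨mem_univ _, hy⟩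
  obtain ⟨W, hW, hfin⟩ := HA.comp_lf isOpen_univ hZ (mem_univ x)
  have h1 : ∀ᶠ y in 𝓝 x, ∀ Y ∈ {Y | A.Comp univ Zx Y ∧ (Y ∩ W).Nonempty}, y ∈ Y → x ∈ Y := by
    refine (eventually_all_finite hfin).2 fun Y hY => ?_
    by_cases h : x ∈ Y
    · exact Eventually.of_forall fun _ _ => h
    · exact ((hY.1.an isOpen_univ hZ x (mem_univ x)).eventually_notMem h).mono
        fun _ h1 h2 => (h1 h2).elim
  filter_upwards [h1, hW, L.opn.mem_nhds hx] with y h2 h3 h4 h5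
  obtain ⟨Y, hY, hyY⟩ := HA.comp_cover isOpen_univ hZ (mem_univ y)
    (hin y fun a => R_sub x hx y h4 h5 _ a)
  exact ⟨Y, ⟨hY, h2 Y ⟨hY, y, hyY, h3⟩ hyY⟩, hyY⟩

/-- **the wandering case** -/
theorem wand [Nontrivial E] [T2Space M] [PreconnectedSpace M] [Countable A.ι]
    (act : ∀ g x, L.act g x = g • x) (an_S : A.An univ L.Sᶜ)
    (R_sub : ∀ x ∈ L.S, ∀ y ∈ L.S, L.R x y → (x, y) ∈ T.R0) (typ : AE μ A T.Typ) {k0 : ℕ}
    (far : ∀ k, k0 ≤ k → ∀ x ∈ L.S, ∀ C : Set (M × M), IsCompact C →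
      (∀ q ∈ C, q.1 ∈ L.U x ∧ q.2 ∈ L.U x ∧ L.π x q.1 ≠ L.π x q.2) →
      ∃ a : ℝ, ∀ q ∈ C, q ∉ T.cl k a)
    (hop : ∀ x ∈ L.S, ∀ y ∈ L.S, L.R x y → ∀ W ∈ 𝓝 y, ∀ᶠ x' in 𝓝 x,
      ∃ y' ∈ W, y' ∈ L.S ∧ L.R x' y')
    (hcl : ∀ x ∈ L.S, ∀ y ∈ L.S, (∃ᶠ q in 𝓝 (x, y), q.1 ∈ L.S ∧ q.2 ∈ L.S ∧ L.R q.1 q.2) →
      L.R x y)
    (hW : L.Wand) : ∃ V : Set M, IsOpen V ∧ V.Nonempty ∧ V ⊆ L.S ∧ ∃ C : Set M, IsCompact C ∧
      (∀ x ∈ V, ∀ y ∈ L.S, L.R x y → y ∈ C) ∧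
      ∀ x ∈ V, ∃ Z : Set M, IsCompact Z ∧ IsPreconnected Z ∧ A.An univ Z ∧ x ∈ Z ∧
        ∀ᶠ y in 𝓝 x, L.R x y → y ∈ Z := by
  obtain ⟨O, h1, ⟨x0, h2⟩, h3, h4, C, hC, h5⟩ :=
    bdd T L act an_S R_sub typ (far k0 le_rfl) hop hcl hW
  obtain ⟨N, hN, hZ⟩ := exZ T L an_S R_sub (far k0 le_rfl)
  obtain ⟨x1, h6, h7⟩ := typ.exists_mem (h1.mem_nhds h2)
  exact ⟨O ∩ {x | LI μ A (fun y => eN N (T.φ y)) x},
    h1.inter (isOpen_iff_mem_nhds.2 fun _ hx => LI.eventually hx), ⟨x1, h6, h7.good N hN⟩,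
    fun x hx => h3 hx.1, C, hC, fun x hx y hy hR => h5 (h4 x hx.1 y hy hR),
    fun x hx => hZ x (h3 hx.1) hx.2 C hC fun y hy hR => h5 (h4 x hx.1 y hy hR)⟩

end

end Crest.Agent.X261.EqW
end

-- ▼ part X261/Eqv/D
section

/-!
# Row 261, package EQV (helper30), file `D`: the output from the levels and the charts
-/

set_option autoImplicit false
set_option linter.unusedSectionVars false
set_option linter.dupNamespace false

open Set Filter Topology MeasureTheory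

namespace Crest.Agent.X261.Eqv

open Crest.Agent.X261.Ans Crest.Agent.X261.Loc

noncomputable section

variable {E : Type} [NormedAddCommGroup E] [NormedSpace ℂ E] [FiniteDimensional ℂ E]
  [MeasurableSpace E] [BorelSpace E] {μ : Measure E} [μ.IsAddHaarMeasure]
  {M : Type} [TopologicalSpace M] {A : HA E M} {G : Type} [Group G] [MulAction G M]

namespace TP

variable {T : TP μ A G}

theorem Near.cl {k : ℕ} {x : M} (h : T.Near k x) (b : ℝ) :
    ∃ V ∈ 𝓝 x, ∀ p ∈ V, ∀ q ∈ V, (p, q) ∈ T.cl k b := by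
  obtain ⟨W, hW, h⟩ := h b
  refine ⟨interior W, interior_mem_nhds.2 hW, fun p hp q hq => mem_cl.2 fun O hO O' hO' => ?_⟩
  obtain ⟨y, h1, h2⟩ := T.M0_ae.exists_mem (inter_mem hO (mem_interior_iff_mem_nhds.1 hp))
  obtain ⟨z, h3, h4⟩ := T.M0_ae.exists_mem (inter_mem hO' (mem_interior_iff_mem_nhds.1 hq))
  exact ⟨y, ⟨h1.1, h2⟩, z, ⟨h3.1, h4⟩, h y ⟨h1.2, h2⟩ z ⟨h3.2, h4⟩⟩

theorem near_of {R : M → M → Prop} {S : Set M} (hS : IsOpen S)
    (sinv : ∀ g : G, ∀ x ∈ S, g • x ∈ S) (R_sub : ∀ x ∈ S, ∀ y ∈ S, R x y → (x, y) ∈ T.R0)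
    {x : M} (hx : x ∈ S) (hg : T.Good x) (k : ℕ) (a : ℝ) : ∃ W ∈ 𝓝 x, ∀ g : G, ∀ y ∈ W, ∀ z ∈ W,
      R (g • y) z → ∀ x₁ ∈ W ∩ T.M0, ∀ x₂ ∈ W ∩ T.M0, T.Xi k (g • x₁) x₂ ≤ (-a : ℝ) := by
  obtain ⟨b, hb⟩ := T.tri3Q k a
  obtain ⟨W, hW, h⟩ := EqW.near_of_good T hg (k + 2) b
  refine ⟨interior W ∩ S, inter_mem (interior_mem_nhds.2 hW) (hS.mem_nhds hx),
    fun g y hy z hz hR x₁ h1 x₂ h2 => ?_⟩
  obtain ⟨u, hu, v, hv, huv⟩ := mem_cl.1 (R_sub _ (sinv g y hy.2) z hz.2 hR (k + 2) b)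
    ((fun w => g⁻¹ • w) ⁻¹' W) ((T.smul_cont g⁻¹).continuousAt.preimage_mem_nhds
      (by simpa using mem_interior_iff_mem_nhds.1 hy.1)) W (mem_interior_iff_mem_nhds.1 hz.1)
  refine hb _ (T.M0_inv g _ h1.2) u hu.2 v hv.2 _ h2.2 ?_ huv
    (h v hv _ ⟨interior_subset h2.1.1, h2.2⟩)
  rw [← T.Xi_inv _ g⁻¹ _ (T.M0_inv g _ h1.2) u hu.2, inv_smul_smul]
  exact h _ ⟨interior_subset h1.1.1, h1.2⟩ _ ⟨hu.1, T.M0_inv _ _ hu.2⟩

namespace Lv

variable [PreconnectedSpace M] (L : T.Lv)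

theorem R_sub {x y : M} (h : L.toGS.LR x y) : (x, y) ∈ T.R0 := fun k a => by
  obtain ⟨f, g, h1, h2⟩ := h
  refine GS.mem_of_freq isClosed_cl h1 ?_
  refine ((L.toGS.ex3 k h1 h1).and_eventually h2).mono fun u hu => ?_
  exact L.sub_R1 k _ _ hu.1.1 hu.1.2.1 (hu.2 k) a

variable {L} (C : L.toGS.Ch)

theorem far (k : ℕ) (hk : C.k0 + 2 ≤ k) (x : M) (hx : x ∈ C.S) (K : Set (M × M)) (hK : IsCompact K)
    (h : ∀ q ∈ K, q.1 ∈ C.U x ∧ q.2 ∈ C.U x ∧ C.π x q.1 ≠ C.π x q.2) :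
    ∃ a : ℝ, ∀ q ∈ K, q ∉ T.cl k a :=
  hK.elim_directed_cover (fun a : ℝ => (T.cl k a)ᶜ) (fun _ => isClosed_cl.isOpen_compl)
    (fun q hq => by
      by_contra hn
      simp only [mem_iUnion, mem_compl_iff, not_exists, not_not] at hn
      exact (h q hq).2.2 (C.eq_of x hx _ (h q hq).1 _ (h q hq).2.1 (L.R1_sub _ (R1_anti hk hn))))
    (directed_of_isDirected_le fun _ _ hab => compl_subset_compl.2 (cl_anti hab))

theorem nearS {x : M} (hx : x ∈ C.S) {k : ℕ} (hk : k ≤ C.k0 + 20) : T.Near k x :=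
  (L.near _ x (C.S_B x hx)).anti hk

theorem sep (x : M) (hx : x ∈ C.S) (K : Set M) (hK : IsCompact K)
    (h : ∀ z ∈ K, z ∈ C.U x ∧ C.π x z ≠ C.π x x) : ∃ V ∈ 𝓝 x, ∀ a : G,
      (∃ y ∈ V, ∃ z ∈ V, L.toGS.LR (a • y) z) → ∀ y ∈ V, ∀ z ∈ K, ¬ L.toGS.LR (a • y) z := by
  obtain ⟨a, ha⟩ := far C (C.k0 + 2) le_rfl x hx (K ×ˢ {x}) (hK.prod isCompact_singleton)
    (by rintro ⟨z, _⟩ ⟨hz, rfl⟩; exact ⟨(h z hz).1, C.U_mem _ hx, (h z hz).2⟩)
  obtain ⟨b₃, h3⟩ := T.cl_comp (C.k0 + 2) a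
  obtain ⟨b₂, h2⟩ := T.cl_comp (C.k0 + 2 + 2) b₃
  obtain ⟨b₁, h1⟩ := T.cl_comp (C.k0 + 2 + 2 + 2) b₂
  obtain ⟨V₁, hV₁, e1⟩ := (nearS C hx (k := C.k0 + 2 + 2 + 2 + 2) (by omega)).cl b₁
  obtain ⟨V₃, hV₃, e3⟩ := (nearS C hx (k := C.k0 + 2 + 2) (by omega)).cl b₃
  refine ⟨V₁ ∩ V₃ ∩ C.S, inter_mem (inter_mem hV₁ hV₃) (C.isOpen_S.mem_nhds hx),
    fun g ⟨y₀, hy₀, z₀, hz₀, h₀⟩ y hy z hz hR => ha (z, x) ⟨hz, rfl⟩ ?_⟩
  exact h3 _ z₀ _ (nearS C hz₀.2 (by omega)) (h2 _ (g • y₀) _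
    (nearS C (C.sinv g _ hy₀.2) (by omega)) (h1 _ (g • y) _ (nearS C (C.sinv g _ hy.2) (by omega))
      (L.R_sub hR.symm _ _) (cl_inv g (e1 y hy.1.1 y₀ hy₀.1.1))) (L.R_sub h₀ _ _))
    (e3 z₀ hz₀.1.2 x (mem_of_mem_nhds hV₃))

/-- the output -/
def out [Nontrivial E] [T2Space M] [Countable A.ι] (typ : AE μ A T.Typ) : T.Out where
  p := C.p
  L := C.leaf (sep C)
  act := fun _ _ => rfl
  an_S := C.an_S
  subm := fun x hx y hy _ hi => ⟨(HA.hol_self_iff hi).1 (C.subm x hx y hy).1,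
    (HA.subm_self_iff (C.subm x hx y hy).1 hi).1 (C.subm x hx y hy)⟩
  R_sub := fun _ _ _ _ h => L.R_sub h
  typ := typ
  near := fun _ hx hg k a => near_of C.isOpen_S C.sinv (fun _ _ _ _ h => L.R_sub h) hx hg k a
  k0 := C.k0 + 2
  far := far C
  wand := EqW.wand T (C.leaf (sep C)) (fun _ _ => rfl) C.an_S (fun _ _ _ _ h => L.R_sub h) typ
    (far C) (fun x _ y hy h W hW => by
      obtain ⟨f, g, h1, h2⟩ := GS.LR.ev h
      filter_upwards [h2, h1.tendsto.eventually (inter_mem hW (C.isOpen_S.mem_nhds hy))]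
        with u a1 a2 using ⟨f u, a2.1, a2.2, a1⟩)
    fun _ hx _ hy h => C.cls hx hy (h.mono fun _ hq => hq.2.2)

end Lv

end TP

/-- existence of the levels -/
def LvStmt : Prop :=
  ∀ (E : Type) [NormedAddCommGroup E] [NormedSpace ℂ E] [FiniteDimensional ℂ E] [Nontrivial E]
    [MeasurableSpace E] [BorelSpace E] (μ : Measure E) [μ.IsAddHaarMeasure]
    (M : Type) [TopologicalSpace M] [T2Space M] [ConnectedSpace M] (A : HA E M) [Countable A.ι]
    (G : Type) [Group G] [MulAction G M] (T : TP μ A G), Nonempty T.Lv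

/-- almost every point is typical -/
def TypStmt : Prop :=
  ∀ (E : Type) [NormedAddCommGroup E] [NormedSpace ℂ E] [FiniteDimensional ℂ E] [Nontrivial E]
    [MeasurableSpace E] [BorelSpace E] (μ : Measure E) [μ.IsAddHaarMeasure]
    (M : Type) [TopologicalSpace M] [T2Space M] [ConnectedSpace M] (A : HA E M) [Countable A.ι]
    (G : Type) [Group G] [MulAction G M] (T : TP μ A G), AE μ A T.Typ

theorem eqv_of (h1 : LvStmt) (h2 : ChStmt) (h3 : TypStmt) : EqvStmt := by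
  intro E _ _ _ _ _ _ μ _ M _ _ _ A _ G _ _ T
  obtain ⟨L⟩ := h1 E μ M A G T
  obtain ⟨C⟩ := h2 E M A G L.toGS
  exact ⟨TP.Lv.out C (h3 E μ M A G T)⟩

end

end Crest.Agent.X261.Eqv
end

-- ▼ part X261/Eq7/Ch

/-!
# X261/Eq7/Ch (helper7): foliation charts of a graded system of relations (`ChStmt`)
-/

set_option autoImplicit false
set_option linter.unusedSectionVars false

open Set Filter Topology Module

namespace Crest.Agent.X261.Eq7

open Crest.Agent.X261.Ans Crest.Agent.X261.Eqv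

variable {E : Type} [NormedAddCommGroup E] [NormedSpace ℂ E] [FiniteDimensional ℂ E]
  {M : Type} [TopologicalSpace M] {A : HA E M} {G : Type} [Group G] [MulAction G M]

/-- the limit relation -/
def relD (Q : GS A G) : RelD A where
  I := Unit
  ne := ⟨()⟩
  R := fun _ => ⋂ k, Q.V k
  an := fun _ => HA.an_iInter isOpen_univ Q.an_V
  diag := fun _ x => mem_iInter.2 fun k => Q.diag k x
  symm := fun _ => ⟨(), fun x y h => mem_iInter.2 fun k => Q.symm k x y (mem_iInter.1 h k)⟩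
  comp := fun _ _ => ⟨(), ⋃ k, Q.B k, ⟨Q.B, fun k => ⟨Q.an_B k, Q.ne_B k⟩, Subset.rfl⟩,
    fun x y z hx hy hz h1 h2 => mem_iInter.2 fun k => Q.comp k x y z
      (fun h => hx (mem_iUnion.2 ⟨_, h⟩)) (fun h => hy (mem_iUnion.2 ⟨_, h⟩))
      (fun h => hz (mem_iUnion.2 ⟨_, h⟩)) (mem_iInter.1 h1 _) (mem_iInter.1 h2 _)⟩

theorem bih (Q : GS A G) (g : G) : HA.Bih (A.prod A) (A.prod A) univ univ
    (fun q => (g • q.1, g • q.2)) (fun q => (g⁻¹ • q.1, g⁻¹ • q.2)) :=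
  HA.bih_univ (fun q => ((Q.hol g q.1).comp (HA.hol_fst A A q)).prodMk
      ((Q.hol g q.2).comp (HA.hol_snd A A q)))
    (fun q => ((Q.hol g⁻¹ q.1).comp (HA.hol_fst A A q)).prodMk
      ((Q.hol g⁻¹ q.2).comp (HA.hol_snd A A q)))
    (fun q => by simp only [inv_smul_smul]) (fun q => by simp only [smul_inv_smul])

theorem inv' (Q : GS A G) {k : ℕ} (g : G) {x y : M} (h : (g • x, g • y) ∈ Q.V k) :
    (x, y) ∈ Q.V k := by
  have := Q.inv k g⁻¹ _ _ h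
  rwa [inv_smul_smul, inv_smul_smul] at this

/-- the system is stationary near the diagonal -/
theorem exists_k0 (Q : GS A G) :
    ∃ k, ∀ x : M, ∀ᶠ q in 𝓝 (x, x), q ∈ Q.V k → ∀ i, q ∈ Q.V i := by
  obtain ⟨k, hk⟩ := HA.stat_anti (A := A.prod A) isOpen_univ
    (Q.K_cpt.image (continuous_id.prodMk continuous_id)) (subset_univ _) Q.an_V Q.V_anti
  refine ⟨k, fun x => ?_⟩
  obtain ⟨g, hg⟩ := Q.K_cov x
  have h1 := (nhds_le_nhdsSet (mem_image_of_mem _ hg)) hk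
  filter_upwards [((bih Q g).hg (x, x) (mem_univ _)).1.eventually h1] with q hq h i
  exact inv' Q g (hq (Q.inv k g _ _ h) i)

theorem chStmt : ChStmt := by
  intro E _ _ _ M _ _ _ A _ G _ _ Q
  obtain ⟨P⟩ := eqv (relD Q)
  obtain ⟨k0, hk0⟩ := exists_k0 Q
  have hYR : ∀ q ∈ P.Y, ∀ k, q ∈ Q.V k := by
    obtain ⟨c, hc⟩ := P.sub
    exact fun q hq => mem_iInter.1 (hc hq)
  have hY : ∀ (g : G), (fun q : M × M => (g⁻¹ • q.1, g⁻¹ • q.2)) ⁻¹' P.Y ⊆ P.Y := fun g =>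
    P.max _ _ () ((bih Q g).irr P.irr) (fun x => P.diag _)
      fun q hq => mem_iInter.2 fun k => inv' Q g⁻¹ (hYR _ hq k)
  have hY' : ∀ (g : G), (fun q : M × M => (g⁻¹ • q.1, g⁻¹ • q.2)) ⁻¹' P.Y = P.Y := fun g =>
    (hY g).antisymm fun q hq => hY g⁻¹ (by
      simpa only [mem_preimage, inv_inv, smul_inv_smul] using hq)
  let B1 : Set M := {x | ¬ (A.prod A).Reg P.Y (finrank ℂ E + P.r) (x, x)}
  let B2 : Set M := {x | ¬ ∀ᶠ q in 𝓝 (x, x), q ∈ (relD Q).R () → q ∈ P.Y}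
  let S : Set M := (B1 ∪ B2 ∪ Q.B (k0 + 20))ᶜ
  have hS : A.An univ Sᶜ := by
    rw [compl_compl]
    exact (P.an_bad.union (P.an_loc ())).union (Q.an_B _)
  have hSo : IsOpen S := isClosed_compl_iff.1 hS.isClosed
  have h1 : ∀ x ∈ S, (A.prod A).Reg P.Y (finrank ℂ E + P.r) (x, x) :=
    fun x hx => not_not.1 fun h => hx (Or.inl (Or.inl h))
  have h2 : ∀ x ∈ S, ∀ᶠ q in 𝓝 (x, x), q ∈ (relD Q).R () → q ∈ P.Y :=
    fun x hx => not_not.1 fun h => hx (Or.inl (Or.inr h))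
  have h3 : ∀ x ∈ S, x ∉ Q.B (k0 + 20) := fun x hx h => hx (Or.inr h)
  have key : ∀ x ∈ S, ∃ (U : Set M) (π : M → Fin P.p → ℂ), IsOpen U ∧ x ∈ U ∧ U ⊆ S ∧
      (∀ y ∈ U, A.Subm (HA.self (Fin P.p → ℂ)) π y) ∧
      (∀ y ∈ U, ∀ z ∈ U, (y, z) ∈ Q.V k0 → π y = π z) ∧
      ∀ y ∈ U, ∀ z ∈ U, π y = π z → ∀ k, (y, z) ∈ Q.V k := by
    intro x hx
    obtain ⟨i, U, π, a1, a2, a3, a4, a5, -⟩ := P.fol x (h1 x hx)
    have a6 := (hk0 x).and (h2 x hx)
    rw [nhds_prod_eq] at a6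
    obtain ⟨W, a7, a8⟩ := mem_prod_self_iff.1 a6
    refine ⟨U ∩ S ∩ interior W, fun y => π (A.e i y), (a1.inter hSo).inter isOpen_interior,
      ⟨⟨a2, hx⟩, mem_interior_iff_mem_nhds.2 a7⟩, fun y hy => hy.1.2, fun y hy =>
      (HA.self_subm_iff.2 (a4 y hy.1.1)).comp (HA.subm_chart (a3 hy.1.1)), fun y hy z hz h => ?_,
      fun y hy z hz h => hYR _ ((a5 y hy.1.1 z hz.1.1).2 h)⟩
    have a9 := a8 (a := (y, z)) ⟨interior_subset hy.2, interior_subset hz.2⟩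
    exact (a5 y hy.1.1 z hz.1.1).1 (a9.2 (mem_iInter.2 (a9.1 h)))
  choose! U π k1 k2 k3 k4 k5 k6 using key
  refine ⟨{ p := P.p, k0 := k0, S := S, an_S := hS, ne := ?_, sinv := fun g x hx => ?_,
            S_B := h3, U := U, π := π, U_opn := k1, U_mem := k2, U_sub := k3, subm := k4,
            eq_of := k5, of_eq := k6 }⟩
  · refine nonempty_compl.2 (HA.Cov.ne_univ (A := A) (((P.an_bad.cov_of_ne ?_).union
      ((P.an_loc ()).cov_of_ne ?_)).union ((Q.an_B _).cov_of_ne (Q.ne_B _))))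
    · obtain ⟨x, hx⟩ := P.ne_good
      exact fun h => (eq_univ_iff_forall.1 h x) hx
    · obtain ⟨x, hx⟩ := P.ne_loc ()
      exact fun h => (eq_univ_iff_forall.1 h x) hx
  · rintro ((h | h) | h)
    · exact h (hY' g ▸ (bih Q g).reg (mem_univ (x, x)) (h1 x hx))
    · apply h
      have e : ((g⁻¹ • g • x, g⁻¹ • g • x) : M × M) = (x, x) := by simp only [inv_smul_smul]
      filter_upwards [((bih Q g).hf (g • x, g • x) (mem_univ _)).1.eventually
        (e.symm ▸ h2 x hx)] with q hq hR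
      exact hY g (hq (mem_iInter.2 fun k => Q.inv k g⁻¹ _ _ (mem_iInter.1 hR k)))
    · have := Q.B_inv _ g⁻¹ _ h
      rw [inv_smul_smul] at this
      exact h3 x hx this

end Crest.Agent.X261.Eq7
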